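import Crest.Agent.X212.An.Cut
import Crest.Agent.X212.Wz78.Hs
import Crest.Agent.X212.Fred93.Cpt
import Crest.Agent.X212.Cut54.Crit
import Crest.Agent.X212.Std94.Gau
import Crest.Agent.X212.Csm97.Cut
import Crest.Agent.X212.Wrd81.Gau

-- ▼ part X212/Hol14/Mode
section

/-!
# Row 212, Toeplitz cut: multiplication operators, modes, Fourier coefficients, Hardy projector
-/

set_option autoImplicit false
set_option linter.unusedSectionVars false
noncomputable section
open scoped Topology InnerProductSpace ENNReal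
open MeasureTheory Set Function Filter

namespace Crest.Agent.X212.Hol14
open An Wz78

variable {κ : Type} [Fintype κ] [DecidableEq κ]

/-- continuous symbols -/
abbrev Sy (κ : Type) [Fintype κ] : Type := C(UnitAddCircle, En κ)

theorem cm_coe {X Y : Type} [TopologicalSpace X] [TopologicalSpace Y] [Zero Y] (g : C(X, Y)) :
    cm g = g := by rw [cm, dif_pos g.continuous]; rfl

theorem cm_apply {X Y : Type} [TopologicalSpace X] [TopologicalSpace Y] [Zero Y] {g : X → Y}
    (h : Continuous g) (x : X) : cm g x = g x := by rw [cm, dif_pos h]; rfl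

theorem mulC_ae (g : Sy κ) (f : L2c κ) : mulC g f =ᵐ[μc] fun θ => g θ (f θ) := by
  refine (ContinuousLinearMap.coeFn_holder (ContinuousLinearMap.id ℝ (En κ))
    (ContinuousMap.toLp ∞ μc ℝ g) f).trans ?_
  filter_upwards [ContinuousMap.coeFn_toLp (p := ∞) (𝕜 := ℝ) μc g] with θ h
  rw [h]; rfl

theorem mulC_mul (g h : Sy κ) (f : L2c κ) : mulC (g * h) f = mulC g (mulC h f) := Lp.ext <| by
  filter_upwards [mulC_ae (g * h) f, mulC_ae g (mulC h f), mulC_ae h f] with θ h1 h2 h3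
  rw [h1, h2, h3]; rfl

theorem mulC_one (f : L2c κ) : mulC 1 f = f := Lp.ext <| by
  filter_upwards [mulC_ae 1 f] with θ h1
  rw [h1]; rfl

theorem norm_mulC (g : Sy κ) (f : L2c κ) : ‖mulC g f‖ ≤ ‖g‖ * ‖f‖ := by
  refine Lp.norm_le_mul_norm_of_ae_le_mul ?_
  filter_upwards [mulC_ae g f] with θ h
  rw [h]
  exact ((g θ).le_opNorm _).trans (by gcongr; exact g.norm_coe_le_norm θ)

/-- the pointwise transpose -/
def tS (g : Sy κ) : Sy κ := ⟨fun θ => trn (g θ), ContinuousLinearMap.adjoint.continuous.comp g.2⟩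

theorem tS_apply (g : Sy κ) (θ : UnitAddCircle) : tS g θ = trn (g θ) := rfl

theorem tS_tS (g : Sy κ) : tS (tS g) = g :=
  ContinuousMap.ext fun _ => ContinuousLinearMap.adjoint_adjoint _

theorem inner_mulC (g : Sy κ) (f h : L2c κ) : ⟪mulC g f, h⟫_ℝ = ⟪f, mulC (tS g) h⟫_ℝ := by
  rw [L2.inner_def, L2.inner_def]
  refine integral_congr_ae ?_
  filter_upwards [mulC_ae g f, mulC_ae (tS g) h] with θ h1 h2
  rw [h1, h2, tS_apply, ContinuousLinearMap.adjoint_inner_right]

/-- constant symbols -/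
abbrev cS (T : En κ) : Sy κ := ContinuousMap.const _ T

theorem mulC_const {κ' : Type} [Fintype κ'] (T : CL (Eu κ) (Eu κ')) (f : L2c κ) :
    T.compLpL 2 μc f =ᵐ[μc] fun θ => T (f θ) := T.coeFn_compLpL f

theorem mulC_cS (T : En κ) (f : L2c κ) : mulC (cS T) f = T.compLpL 2 μc f := Lp.ext <| by
  filter_upwards [mulC_ae (cS T) f, mulC_const T f] with θ h1 h2
  rw [h1, h2]; rfl

/-! ### complex scalars -/

/-- an orthogonal complex structure -/
structure CJ (J : En κ) : Prop where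
  sq : J * J = -1
  sk : Skw J

/-- a complex orthogonal projector -/
structure CP (J p : En κ) : Prop extends CJ J where
  sym : Sym p
  idem : p * p = p
  comm : J * p = p * J

variable {J p T : En κ}

/-- `csE` as a linear map -/
def csL (J : En κ) : CL ℂ (En κ) :=
  Complex.reCLM.smulRight 1 + Complex.imCLM.smulRight J

theorem csL_apply (c : ℂ) : csL J c = csE J c := rfl

theorem continuous_csE : Continuous (csE J) := (csL J).continuous

theorem csE_apply (c : ℂ) (v : Eu κ) : csE J c v = cs J c v := rfl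

@[simp] theorem csE_one : csE J 1 = 1 := by simp [csE]
@[simp] theorem csE_zero : csE J 0 = 0 := by simp [csE]
@[simp] theorem csE_I : csE J Complex.I = J := by simp [csE]
theorem csE_real (r : ℝ) : csE J r = r • (1 : En κ) := by simp [csE]
theorem csE_add (a b : ℂ) : csE J (a + b) = csE J a + csE J b := map_add (csL J) a b

theorem csE_mul (h : J * J = -1) (a b : ℂ) : csE J (a * b) = csE J a * csE J b := by
  simp only [csE, Complex.mul_re, Complex.mul_im, add_mul, mul_add, smul_mul_assoc, mul_smul_comm,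
    one_mul, mul_one, h]
  module

theorem csE_comm (h : J * T = T * J) (a : ℂ) : csE J a * T = T * csE J a := by
  simp only [csE, add_mul, mul_add, smul_mul_assoc, mul_smul_comm, one_mul, mul_one, h]

theorem csE_anti (h : J * T = -(T * J)) (a : ℂ) :
    csE J a * T = T * csE J (starRingEnd ℂ a) := by
  simp only [csE, add_mul, mul_add, smul_mul_assoc, mul_smul_comm, one_mul, mul_one, h,
    Complex.conj_re, Complex.conj_im, neg_smul, smul_neg, mul_neg]

theorem trn_csE (h : Skw J) (a : ℂ) : trn (csE J a) = csE J (starRingEnd ℂ a) := by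
  have h1 : trn (1 : En κ) = 1 := ContinuousLinearMap.adjoint_id
  simp only [csE, map_add, map_smul, h1, Skw.trn h, Complex.conj_re, Complex.conj_im, neg_smul,
    smul_neg]

/-- complex functions as symbols -/
def fS (J : En κ) : CL C(UnitAddCircle, ℂ) (Sy κ) := (csL J).compLeftContinuous ℝ UnitAddCircle

theorem fS_apply (φ : C(UnitAddCircle, ℂ)) (θ : UnitAddCircle) : fS J φ θ = csE J (φ θ) := rfl

theorem fS_mul (h : J * J = -1) (φ ψ : C(UnitAddCircle, ℂ)) : fS J (φ * ψ) = fS J φ * fS J ψ :=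
  ContinuousMap.ext fun _ => csE_mul h _ _

theorem fS_one : fS J 1 = 1 := ContinuousMap.ext fun _ => csE_one

/-- the symbol `e^{2πinθ}` -/
abbrev eS (J : En κ) (n : ℤ) : Sy κ := fS J (fourier n)

theorem eS_add (h : J * J = -1) (m n : ℤ) : eS J (m + n) = eS J m * eS J n :=
  ContinuousMap.ext fun θ => by
    rw [fS_apply, fourier_add, csE_mul h]; rfl

theorem eS_zero : eS J 0 = 1 := ContinuousMap.ext fun θ => by
  rw [fS_apply, fourier_zero, csE_one]; rfl

theorem tS_eS (h : Skw J) (n : ℤ) : tS (eS J n) = eS J (-n) := ContinuousMap.ext fun θ => by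
  rw [tS_apply, fS_apply, fS_apply, trn_csE h, fourier_neg]

theorem fS_cS (h : J * T = T * J) (φ : C(UnitAddCircle, ℂ)) : fS J φ * cS T = cS T * fS J φ :=
  ContinuousMap.ext fun _ => csE_comm h _

theorem eS_cS_anti (h : J * T = -(T * J)) (n : ℤ) : eS J n * cS T = cS T * eS J (-n) :=
  ContinuousMap.ext fun θ => by
    change csE J _ * T = T * csE J _
    rw [csE_anti h, fourier_neg]

/-! ### modes -/

/-- constants -/
abbrev kL : CL (Eu κ) (L2c κ) := Lp.constL 2 μc ℝ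

theorem kL_ae (v : Eu κ) : kL v =ᵐ[μc] fun _ => v := Lp.coeFn_const 2 μc v

theorem md_eq (n : ℤ) (v : Eu κ) : md J n v = mulC (eS J n) (kL v) := by
  have : (cm fun θ => csE J (fourier n θ)) = eS J n := cm_coe (eS J n)
  rw [md, this]; rfl

theorem cS_kL (T : En κ) (v : Eu κ) : mulC (cS T) (kL v) = kL (T v) := Lp.ext <| by
  filter_upwards [mulC_ae (cS T) (kL v), kL_ae v, kL_ae (T v)] with θ h1 h2 h3
  rw [h1, h2, h3]; rfl

theorem eS_md (h : J * J = -1) (k n : ℤ) (v : Eu κ) : mulC (eS J k) (md J n v) = md J (n + k) v := by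
  rw [md_eq, md_eq, ← mulC_mul, ← eS_add h, add_comm]

theorem cS_md (h : J * T = T * J) (n : ℤ) (v : Eu κ) : mulC (cS T) (md J n v) = md J n (T v) := by
  rw [md_eq, md_eq, ← mulC_mul, ← fS_cS h, mulC_mul, cS_kL]

theorem cS_md_anti (h : J * T = -(T * J)) (n : ℤ) (v : Eu κ) :
    mulC (cS T) (md J n v) = md J (-n) (T v) := by
  rw [md_eq, md_eq, ← mulC_mul, ← cS_kL, ← mulC_mul, eS_cS_anti h, neg_neg]

theorem inner_kL_md (n : ℤ) (v w : Eu κ) : ⟪kL v, md J n w⟫_ℝ = if n = 0 then ⟪v, w⟫_ℝ else 0 := by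
  have h1 : ⟪kL v, md J n w⟫_ℝ = ∫ θ, ⟪v, csL J (fourier n θ) w⟫_ℝ ∂μc := by
    rw [L2.inner_def, md_eq]
    refine integral_congr_ae ?_
    filter_upwards [mulC_ae (eS J n) (kL w), kL_ae v, kL_ae w] with θ h1 h2 h3
    rw [h1, h2, h3]; rfl
  let L : CL ℂ ℝ := innerSL ℝ v ∘L ContinuousLinearMap.apply ℝ (Eu κ) w ∘L csL J
  have h2 := L.integral_comp_comm (μ := μc) (φ := fun θ => fourier n θ)
    ((fourier n).continuous.integrable_of_hasCompactSupport (HasCompactSupport.of_compactSpace _))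
  refine h1.trans (h2.trans ?_)
  split_ifs with h
  · subst h
    simp only [fourier_zero, integral_const, probReal_univ, one_smul]
    change ⟪v, csE J 1 w⟫_ℝ = _
    rw [csE_one]; rfl
  · rw [integral_eq_zero_of_add_right_eq_neg (fourier_add_half_inv_index h one_pos), map_zero]

theorem inner_fc (n : ℤ) (u : L2c κ) (v : Eu κ) : ⟪v, fc J n u⟫_ℝ = ⟪md J n v, u⟫_ℝ :=
  ContinuousLinearMap.adjoint_inner_right _ _ _

theorem fc_md (h : CJ J) (n m : ℤ) (w : Eu κ) : fc J n (md J m w) = if n = m then w else 0 := by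
  refine ext_inner_left ℝ fun v => ?_
  rw [inner_fc, md_eq, inner_mulC, tS_eS h.sk, eS_md h.sq, inner_kL_md]
  by_cases e : n = m
  · simp [e]
  · rw [if_neg (by omega), if_neg e, inner_zero_right]

theorem norm_md (h : CJ J) (n : ℤ) (v : Eu κ) : ‖md J n v‖ = ‖v‖ := by
  have := inner_fc (J := J) n (md J n v) v
  rw [fc_md h, if_pos rfl, real_inner_self_eq_norm_sq, real_inner_self_eq_norm_sq] at this
  exact (pow_left_inj₀ (norm_nonneg _) (norm_nonneg _) two_ne_zero).1 this.symm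

theorem fc_eS (h : CJ J) (k n : ℤ) (u : L2c κ) : fc J n (mulC (eS J k) u) = fc J (n - k) u :=
  ext_inner_left ℝ fun v => by
    rw [inner_fc, inner_fc, real_inner_comm, inner_mulC, tS_eS h.sk, eS_md h.sq, real_inner_comm,
      sub_eq_add_neg]

theorem trn_comm (hJ : Skw J) (h : J * T = T * J) : J * trn T = trn T * J := by
  have := congrArg trn h
  rw [trn_mul, trn_mul, Skw.trn hJ, mul_neg, neg_mul, neg_inj] at this
  exact this.symm

theorem trn_anti (hJ : Skw J) (h : J * T = -(T * J)) : J * trn T = -(trn T * J) := by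
  have : trn (J * T) = -trn (T * J) := by rw [h]; exact map_neg ContinuousLinearMap.adjoint _
  rw [trn_mul, trn_mul, Skw.trn hJ, mul_neg, neg_mul, neg_neg] at this
  exact this.symm

theorem fc_cS (hJ : Skw J) (h : J * T = T * J) (n : ℤ) (u : L2c κ) :
    fc J n (mulC (cS T) u) = T (fc J n u) := ext_inner_left ℝ fun v => by
  rw [inner_fc, real_inner_comm, inner_mulC, show tS (cS T) = cS (trn T) from rfl,
    cS_md (trn_comm hJ h), real_inner_comm, ← inner_fc, ContinuousLinearMap.adjoint_inner_left]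

theorem fc_cS_anti (hJ : Skw J) (h : J * T = -(T * J)) (n : ℤ) (u : L2c κ) :
    fc J n (mulC (cS T) u) = T (fc J (-n) u) := ext_inner_left ℝ fun v => by
  rw [inner_fc, real_inner_comm, inner_mulC, show tS (cS T) = cS (trn T) from rfl,
    cS_md_anti (trn_anti hJ h), real_inner_comm, ← inner_fc, ContinuousLinearMap.adjoint_inner_left]

/-- induction on trigonometric polynomials -/
theorem four_ind {P : C(UnitAddCircle, ℂ) → Prop} (hc : IsClosed {φ | P φ}) (h0 : P 0)
    (h1 : ∀ n, P (fourier n)) (ha : ∀ φ ψ, P φ → P ψ → P (φ + ψ))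
    (hs : ∀ (c : ℂ) φ, P φ → P (c • φ)) (φ : C(UnitAddCircle, ℂ)) : P φ := by
  have h : φ ∈ (Submodule.span ℂ (range (@fourier 1))).topologicalClosure := by
    rw [span_fourier_closure_eq_top]; trivial
  refine closure_minimal (fun ψ hψ => ?_) hc h
  induction hψ using Submodule.span_induction with
  | mem x hx => obtain ⟨n, rfl⟩ := hx; exact h1 n
  | zero => exact h0
  | add x y _ _ hx hy => exact ha _ _ hx hy
  | smul c x _ hx => exact hs _ _ hx

theorem fS_smul (h : J * J = -1) (c : ℂ) (φ : C(UnitAddCircle, ℂ)) :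
    fS J (c • φ) = fS J φ * cS (csE J c) := ContinuousMap.ext fun θ => by
  change csE J (c * φ θ) = _
  rw [mul_comm, csE_mul h]; rfl

/-- a real function as a complex function -/
def ofR (φ : C(UnitAddCircle, ℝ)) : C(UnitAddCircle, ℂ) :=
  ⟨fun θ => (φ θ : ℂ), Complex.continuous_ofReal.comp φ.2⟩

/-- completeness of the modes -/
theorem eq_zero_of_fc (h : CJ J) {u : L2c κ} (hu : ∀ n, fc J n u = 0) : u = 0 := by
  have h1 : ∀ φ : C(UnitAddCircle, ℂ), ∀ v, ⟪mulC (fS J φ) (kL v), u⟫_ℝ = 0 := by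
    refine four_ind ?_ (fun v => by simp) (fun n v => ?_) (fun φ ψ h1 h2 v => ?_)
      fun c φ h1 v => ?_
    · simp only [ofPred_forall]
      exact isClosed_iInter fun v => isClosed_eq (by fun_prop) continuous_const
    · rw [← md_eq, ← inner_fc, hu, inner_zero_right]
    · rw [map_add, map_add, add_apply, inner_add_left, h1, h2, add_zero]
    · rw [fS_smul h.sq, mulC_mul, cS_kL, h1]
  have h2 : ∀ f : C(UnitAddCircle, Eu κ), ⟪ContinuousMap.toLp 2 μc ℝ f, u⟫_ℝ = 0 := fun f => by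
    let φ : κ → C(UnitAddCircle, ℝ) := fun i => ⟨fun θ => f θ i, by fun_prop⟩
    have : ContinuousMap.toLp 2 μc ℝ f =
        ∑ i, mulC (fS J (ofR (φ i))) (kL (EuclideanSpace.single i 1)) := by
      refine Lp.ext ?_
      filter_upwards [ContinuousMap.coeFn_toLp (p := 2) (𝕜 := ℝ) μc f, Lp.coeFn_finsetSum Finset.univ
        fun i => mulC (fS J (ofR (φ i))) (kL (EuclideanSpace.single i 1)),
        eventually_all.2 fun i => mulC_ae (fS J (ofR (φ i))) (kL (EuclideanSpace.single i 1)),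
        eventually_all.2 fun i : κ => kL_ae (EuclideanSpace.single i (1 : ℝ))] with θ a b c d
      rw [a, b, Finset.sum_apply, ← eu_sum (f θ)]
      refine Finset.sum_congr rfl fun i _ => ?_
      rw [c, d, fS_apply]
      change _ = csE J ((f θ i : ℝ) : ℂ) _
      rw [csE_real]; rfl
    rw [this, sum_inner]
    exact Finset.sum_eq_zero fun i _ => h1 _ _
  have h3 := (ContinuousMap.toLp_denseRange (Eu κ) μc ℝ (p := 2) (by simp)).induction_on
    (p := fun w => ⟪w, u⟫_ℝ = 0) u (isClosed_eq (by fun_prop) continuous_const) h2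
  exact inner_self_eq_zero.1 h3

theorem ext_fc (h : CJ J) {u w : L2c κ} (hu : ∀ n, fc J n u = fc J n w) : u = w :=
  sub_eq_zero.1 (eq_zero_of_fc h fun n => by rw [map_sub, hu, sub_self])

/-! ### the Hardy space -/

/-- the Hardy projector -/
abbrev PH (J p : En κ) : CL (L2c κ) (L2c κ) := (Hd J p).starProjection

theorem md_mem {n : ℤ} (hn : 0 ≤ n) {v : Eu κ} (hv : p v = v) : md J n v ∈ Hd J p :=
  Submodule.le_topologicalClosure _ (Submodule.subset_span (mem_iUnion.2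
    ⟨n.toNat, v, hv, by rw [Int.toNat_of_nonneg hn]⟩))

theorem Hd_ind {P : L2c κ → Prop} (hc : IsClosed {u | P u}) (h0 : P 0)
    (h1 : ∀ n : ℕ, ∀ v, p v = v → P (md J n v)) (ha : ∀ u w, P u → P w → P (u + w))
    (hs : ∀ (c : ℝ) u, P u → P (c • u)) {u : L2c κ} (hu : u ∈ Hd J p) : P u := by
  refine closure_minimal (fun ψ hψ => ?_) hc hu
  induction hψ using Submodule.span_induction with
  | mem x hx => obtain ⟨n, v, hv, rfl⟩ := mem_iUnion.1 hx; exact h1 n v hv
  | zero => exact h0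
  | add x y _ _ hx hy => exact ha _ _ hx hy
  | smul c x _ hx => exact hs _ _ hx

theorem CP.pp (h : CP J p) (v : Eu κ) : p (p v) = p v := congrArg (fun T : En κ => T v) h.idem

theorem mem_orth (h : CP J p) {u : L2c κ} : u ∈ (Hd J p)ᗮ ↔ ∀ n, 0 ≤ n → p (fc J n u) = 0 := by
  refine ⟨fun hu n hn => ext_inner_left ℝ fun v => ?_, fun hu w hw => ?_⟩
  · rw [← h.sym, inner_fc, hu _ (md_mem hn (h.pp v)), inner_zero_right]
  · refine Hd_ind (P := fun w => ⟪w, u⟫_ℝ = 0) (isClosed_eq (by fun_prop) continuous_const)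
      (by simp) (fun n v hv => ?_) (fun a b ha hb => by rw [inner_add_left, ha, hb, add_zero])
      (fun c a ha => by rw [inner_smul_left, ha, mul_zero]) hw
    rw [← inner_fc, ← hv, h.sym, hu _ (by positivity), inner_zero_right]

theorem PH_md (h : CP J p) (n : ℤ) (v : Eu κ) :
    PH J p (md J n v) = if 0 ≤ n then md J n (p v) else 0 := by
  refine Submodule.eq_starProjection_of_mem_orthogonal ?_ ((mem_orth h).2 fun m hm => ?_)
  · split_ifs with hn
    exacts [md_mem hn (h.pp v), zero_mem _]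
  · split_ifs with hn
    · rw [← map_sub, fc_md h.toCJ]
      split_ifs
      · rw [map_sub, h.pp, sub_self]
      · exact map_zero _
    · rw [sub_zero, fc_md h.toCJ, if_neg (by omega), map_zero]

theorem fc_PH (h : CP J p) (n : ℤ) (u : L2c κ) :
    fc J n (PH J p u) = if 0 ≤ n then p (fc J n u) else 0 := ext_inner_left ℝ fun v => by
  rw [inner_fc, ← Submodule.inner_starProjection_left_eq_right, PH_md h]
  split_ifs
  · rw [← inner_fc, h.sym]
  · simp

theorem mem_Hd (h : CP J p) {u : L2c κ} :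
    u ∈ Hd J p ↔ (∀ n, n < 0 → fc J n u = 0) ∧ ∀ n, p (fc J n u) = fc J n u := by
  rw [← Submodule.starProjection_eq_self_iff]
  refine ⟨fun hu => ⟨fun n hn => ?_, fun n => ?_⟩, fun hu => ext_fc h.toCJ fun n => ?_⟩
  · rw [← hu, fc_PH h, if_neg (by omega)]
  · rw [← hu, fc_PH h]
    split_ifs
    exacts [h.pp _, map_zero _]
  · rw [fc_PH h]
    split_ifs with hn
    exacts [hu.2 n, (hu.1 n (by omega)).symm]

theorem PH_eq_zero (h : CP J p) {u : L2c κ} : PH J p u = 0 ↔ ∀ n, 0 ≤ n → p (fc J n u) = 0 := by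
  rw [← mem_orth h, Submodule.starProjection_apply_eq_zero_iff]

theorem PH_coe (ψ : Hd J p) : PH J p ψ = ψ := Submodule.starProjection_eq_self_iff.2 ψ.2

theorem cS_coe (h : CP J p) (ψ : Hd J p) : mulC (cS p) ψ = ψ := ext_fc h.toCJ fun n => by
  rw [fc_cS h.sk h.comm, ((mem_Hd h).1 ψ.2).2]

theorem cpr_coe (L : CL (L2c κ) (L2c κ)) (ψ : Hd J p) : (cpr J p L ψ : L2c κ) = PH J p (L ψ) := rfl

end Crest.Agent.X212.Hol14
end
end

-- ▼ part X212/Hol14/Hardy
section

/-!
# Row 212, Toeplitz cut: Toeplitz operators are Fredholm; index, compactness, density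
-/

set_option autoImplicit false
set_option linter.unusedSectionVars false
noncomputable section
open scoped Topology InnerProductSpace ENNReal
open MeasureTheory Set Function Filter Module

namespace Crest.Agent.X212.Hol14
open An Wz78
open Fred93 (Fr)

variable {κ : Type} [Fintype κ] [DecidableEq κ] {J p T : En κ}

theorem norm_cpr_mulC (g : Sy κ) (ψ : Hd J p) : ‖cpr J p (mulC g) ψ‖ ≤ ‖g‖ * ‖ψ‖ :=
  ((Hd J p).norm_starProjection_apply_le _).trans (norm_mulC g ψ)

theorem norm_cpr (g : Sy κ) : ‖cpr J p (mulC g)‖ ≤ ‖g‖ :=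
  ContinuousLinearMap.opNorm_le_bound _ (norm_nonneg g) (norm_cpr_mulC g)

theorem cpr_add (A B : CL (L2c κ) (L2c κ)) : cpr J p (A + B) = cpr J p A + cpr J p B := by
  simp only [cpr, ContinuousLinearMap.add_comp, ContinuousLinearMap.comp_add]

theorem cpr_smul (r : ℝ) (A : CL (L2c κ) (L2c κ)) : cpr J p (r • A) = r • cpr J p A := by
  simp only [cpr, ContinuousLinearMap.smul_comp, ContinuousLinearMap.comp_smul]

/-- Toeplitz operators as a linear map of the symbol -/
def tpzL (J p : En κ) : CL (Sy κ) (CL (Hd J p) (Hd J p)) := LinearMap.mkContinuous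
  { toFun := fun g => cpr J p (mulC g)
    map_add' := fun g g' => by rw [map_add, cpr_add]
    map_smul' := fun r g => by rw [map_smul, cpr_smul]; rfl } 1 fun g =>
  (norm_cpr g).trans_eq (one_mul _).symm

theorem tpz_eq (g : UnitAddCircle → En κ) : tpz J p g = tpzL J p (cm g) := rfl

theorem tpz_coe (g : Sy κ) : tpz J p g = tpzL J p g := by rw [tpz_eq, cm_coe]

theorem tpzL_coe (g : Sy κ) (ψ : Hd J p) : (tpzL J p g ψ : L2c κ) = PH J p (mulC g ψ) := rfl

theorem norm_tpzL (g : Sy κ) : ‖tpzL J p g‖ ≤ ‖g‖ := norm_cpr g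

theorem tpzL_one (ψ : Hd J p) : tpzL J p 1 ψ = ψ := Subtype.ext <| by
  rw [tpzL_coe, mulC_one, PH_coe]

theorem tpzL_congr (h : CP J p) {g g' : Sy κ} (e : ∀ θ, g θ * p = g' θ * p) :
    tpzL J p g = tpzL J p g' := ContinuousLinearMap.ext fun ψ => Subtype.ext <| by
  rw [tpzL_coe, tpzL_coe, ← cS_coe h ψ, ← mulC_mul, ← mulC_mul,
    show g * cS p = g' * cS p from ContinuousMap.ext e]

theorem tpzL_p (h : CP J p) {g : Sy κ} (e : ∀ θ, g θ * p = p) (ψ : Hd J p) : tpzL J p g ψ = ψ := by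
  rw [tpzL_congr h (g' := 1) fun θ => (e θ).trans (one_mul p).symm, tpzL_one]

theorem inner_tpzL (g : Sy κ) (ψ χ : Hd J p) : ⟪tpzL J p g ψ, χ⟫_ℝ = ⟪ψ, tpzL J p (tS g) χ⟫_ℝ := by
  rw [Submodule.coe_inner, Submodule.coe_inner, tpzL_coe, tpzL_coe,
    Submodule.inner_starProjection_left_eq_right, ← Submodule.inner_starProjection_left_eq_right _ ψ.1,
    PH_coe, PH_coe, inner_mulC]

theorem adjoint_tpzL (g : Sy κ) : ContinuousLinearMap.adjoint (tpzL J p g) = tpzL J p (tS g) :=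
  ((ContinuousLinearMap.eq_adjoint_iff _ _).2 fun ψ χ => by rw [inner_tpzL, tS_tS]).symm

/-- symbols commuting with `J` and `p` -/
def Cm (J p : En κ) (g : Sy κ) : Prop := ∀ θ, J * g θ = g θ * J ∧ p * g θ = g θ * p

theorem Cm.tS (h : CP J p) {g : Sy κ} (hg : Cm J p g) : Cm J p (tS g) := fun θ =>
  ⟨trn_comm h.sk (hg θ).1, by
    have := congrArg trn (hg θ).2
    rw [trn_mul, trn_mul, Sym.trn h.sym] at this
    exact this.symm⟩

theorem cm_fS (h : CP J p) (φ : C(UnitAddCircle, ℂ)) : Cm J p (fS J φ) := fun _ =>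
  ⟨(csE_comm rfl _).symm, (csE_comm h.comm _).symm⟩

/-- the commutator with the Hardy projector -/
def hk (J p : En κ) : CL (Sy κ) (CL (L2c κ) (L2c κ)) :=
  (ContinuousLinearMap.mul ℝ _ (PH J p) - (ContinuousLinearMap.mul ℝ _).flip (PH J p)) ∘L mulC

theorem hk_apply (g : Sy κ) (u : L2c κ) :
    hk J p g u = PH J p (mulC g u) - mulC g (PH J p u) := rfl

theorem cpt_fin {X Y : Type} [NormedAddCommGroup X] [NormedSpace ℝ X] [NormedAddCommGroup Y]
    [NormedSpace ℝ Y] (A : CL (Eu κ) Y) (B : CL X (Eu κ)) : IsCompactOperator (A ∘L B) :=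
  (isCompactOperator_of_locallyCompactSpace_dom B).clm_comp A

theorem cpt_sum {X Y α : Type} [NormedAddCommGroup X] [NormedSpace ℝ X] [NormedAddCommGroup Y]
    [NormedSpace ℝ Y] (s : Finset α) {A : α → CL X Y} (h : ∀ a ∈ s, IsCompactOperator (A a)) :
    IsCompactOperator (∑ a ∈ s, A a : CL X Y) :=
  Finset.sum_induction A (fun L : CL X Y => IsCompactOperator L) (fun _ _ a b => a.add b)
    isCompactOperator_zero h

theorem cpt_mono (h : CP J p) (hJ : J * T = T * J) (hp : p * T = T * p) (k : ℤ) :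
    IsCompactOperator (hk J p (eS J k * cS T)) := by
  let c : ℤ → ℝ := fun j => (if 0 ≤ j + k then 1 else 0) - if 0 ≤ j then 1 else 0
  have : hk J p (eS J k * cS T) =
      ∑ j ∈ Finset.Icc (-|k|) |k|, (c j • md J (j + k) ∘L (p * T)) ∘L fc J j := by
    refine ContinuousLinearMap.ext fun u => ext_fc h.toCJ fun n => ?_
    have e : ∀ w, fc J n (mulC (eS J k * cS T) w) = T (fc J (n - k) w) := fun w => by
      rw [mulC_mul, fc_eS h.toCJ, fc_cS h.sk hJ]
    have e2 : ∀ w, T (p w) = p (T w) := fun w => (congrArg (fun S : En κ => S w) hp).symm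
    rw [hk_apply, map_sub, fc_PH h, e, e, fc_PH h, sum_apply, map_sum,
      Finset.sum_eq_single (n - k) (fun j _ hj => ?_) fun hj => ?_]
    · simp only [ContinuousLinearMap.comp_apply, smul_apply, map_smul, fc_md h.toCJ, c,
        sub_add_cancel, if_true, mul_apply_eq_comp]
      split_ifs <;> simp [e2]
    · simp only [ContinuousLinearMap.comp_apply, smul_apply, map_smul, fc_md h.toCJ]
      rw [if_neg (by omega), smul_zero]
    · have : c (n - k) = 0 := by
        rw [Finset.mem_Icc, not_and_or] at hj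
        simp only [c]
        cases abs_cases k <;> split_ifs <;> first | omega | simp
      simp [this]
  rw [this]
  exact cpt_sum _ fun j _ => cpt_fin _ _

theorem cpt_fS (h : CP J p) (φ : C(UnitAddCircle, ℂ)) :
    ∀ T : En κ, J * T = T * J → p * T = T * p → IsCompactOperator (hk J p (fS J φ * cS T)) := by
  refine four_ind (P := fun φ => ∀ T : En κ, J * T = T * J → p * T = T * p →
    IsCompactOperator (hk J p (fS J φ * cS T))) ?_ (fun T _ _ => ?_)
    (fun n T a b => cpt_mono h a b n) (fun φ ψ h1 h2 T a b => ?_) (fun c φ h1 T a b => ?_) φ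
  · simp only [ofPred_forall]
    refine isClosed_iInter fun T => isClosed_iInter fun _ => isClosed_iInter fun _ => ?_
    exact isClosed_setOfPred_isCompactOperator.preimage
      (f := fun φ => hk J p (fS J φ * cS T)) (by fun_prop)
  · rw [show fS J 0 * cS T = 0 from ContinuousMap.ext fun _ => by simp, map_zero]
    exact isCompactOperator_zero
  · rw [show fS J (φ + ψ) * cS T = fS J φ * cS T + fS J ψ * cS T from
      ContinuousMap.ext fun _ => by rw [map_add]; exact add_mul _ _ _, map_add]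
    exact (h1 T a b).add (h2 T a b)
  · rw [fS_smul h.sq, show fS J φ * cS (csE J c) * cS T = fS J φ * cS (csE J c * T) from
      ContinuousMap.ext fun _ => mul_assoc _ _ _]
    refine h1 (csE J c * T) ?_ ?_
    · rw [← mul_assoc, ← csE_comm rfl, mul_assoc, a, mul_assoc]
    · rw [← mul_assoc, ← csE_comm h.comm, mul_assoc, b, mul_assoc]

/-- the projector onto the commutant of `J` and `p` -/
def av (J p : En κ) : En κ →ₗ[ℝ] En κ where
  toFun T := (1 / 2 : ℝ) • ((p * T * p + (1 - p) * T * (1 - p)) -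
    J * (p * T * p + (1 - p) * T * (1 - p)) * J)
  map_add' S T := by simp only [mul_add, add_mul]; module
  map_smul' r T := by simp only [mul_add, add_mul, mul_smul_comm, smul_mul_assoc, RingHom.id_apply]; module

theorem av_comm (h : CP J p) (T : En κ) :
    J * av J p T = av J p T * J ∧ p * av J p T = av J p T * p := by
  set S := p * T * p + (1 - p) * T * (1 - p) with hS
  have h1 : p * S = S * p := by
    have a : p * (1 - p) = 0 := by rw [mul_sub, h.idem, mul_one, sub_self]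
    have b : (1 - p) * p = 0 := by rw [sub_mul, h.idem, one_mul, sub_self]
    rw [hS, mul_add, add_mul, ← mul_assoc, ← mul_assoc, ← mul_assoc, ← mul_assoc, a, h.idem,
      mul_assoc _ (1 - p), b, mul_assoc _ p p, h.idem]
    simp
  change J * ((1 / 2 : ℝ) • (S - J * S * J)) = ((1 / 2 : ℝ) • (S - J * S * J)) * J ∧
    p * ((1 / 2 : ℝ) • (S - J * S * J)) = ((1 / 2 : ℝ) • (S - J * S * J)) * p
  rw [mul_smul_comm, smul_mul_assoc, mul_smul_comm, smul_mul_assoc]
  constructor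
  · rw [mul_sub, sub_mul, ← mul_assoc, ← mul_assoc, h.sq, mul_assoc _ J J, h.sq]
    congr 1; noncomm_ring
  · rw [mul_sub, sub_mul, h1, ← mul_assoc, ← mul_assoc, ← h.comm, mul_assoc J p, h1,
      mul_assoc _ J p, h.comm]
    simp only [mul_assoc]

theorem av_fix (h : CP J p) (hJ : J * T = T * J) (hp : p * T = T * p) : av J p T = T := by
  have h1 : p * T * p + (1 - p) * T * (1 - p) = T := by
    have : T * p * p = T * p := by rw [mul_assoc, h.idem]
    simp only [sub_mul, mul_sub, one_mul, mul_one, this, hp]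
    abel
  change (1 / 2 : ℝ) • (_ - J * _ * J) = T
  rw [h1, hJ, mul_assoc, h.sq, mul_neg, mul_one]
  module

theorem cpt_hk (h : CP J p) {g : Sy κ} (hg : Cm J p g) : IsCompactOperator (hk J p g) := by
  let φ : κ × κ → C(UnitAddCircle, ℝ) := fun i => ⟨fun θ => hsL (g θ) i, by fun_prop⟩
  have : g = ∑ i, fS J (ofR (φ i)) * cS (av J p (opL (EuclideanSpace.single i 1))) := by
    refine ContinuousMap.ext fun θ => ?_
    rw [ContinuousMap.sum_apply, ← av_fix h (hg θ).1 (hg θ).2, ← opL_hsL (g θ), ← eu_sum (hsL (g θ)),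
      map_sum, map_sum]
    refine Finset.sum_congr rfl fun i _ => ?_
    change _ = csE J ((hsL (g θ) i : ℝ) : ℂ) * _
    rw [csE_real, map_smul, map_smul, smul_mul_assoc, one_mul]; rfl
  rw [this, map_sum]
  exact cpt_sum _ fun i _ => cpt_fS h _ _ (av_comm h _).1 (av_comm h _).2

/-- Toeplitz operators are multiplicative modulo compact operators -/
theorem cpt_mul (h : CP J p) {g : Sy κ} (hg : Cm J p g) (g' : Sy κ) :
    IsCompactOperator (tpzL J p g ∘L tpzL J p g' - tpzL J p (g * g') :) := by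
  have : tpzL J p g ∘L tpzL J p g' - tpzL J p (g * g') = -((Hd J p).orthogonalProjectionOnto ∘L
      hk J p g ∘L ((1 - PH J p) ∘L mulC g' ∘L (Hd J p).subtypeL)) := by
    refine ContinuousLinearMap.ext fun ψ => Subtype.ext ?_
    change PH J p (mulC g (PH J p (mulC g' ψ))) - PH J p (mulC (g * g') ψ) =
      -PH J p (hk J p g (mulC g' ψ - PH J p (mulC g' ψ)))
    have e : ∀ u, PH J p (PH J p u) = PH J p u := fun u => PH_coe ⟨_, (Hd J p).starProjection_apply_mem u⟩
    simp only [hk_apply, map_sub, e, mulC_mul]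
    abel
  rw [this]
  exact (((cpt_hk h hg).comp_clm ((1 - PH J p) ∘L mulC g' ∘L (Hd J p).subtypeL)).clm_comp
    (Hd J p).orthogonalProjectionOnto).neg

theorem fr_mul (h : CP J p) {g g' : Sy κ} (hg : Cm J p g) {n m : ℤ} (a : Fr (tpzL J p g) n)
    (b : Fr (tpzL J p g') m) : Fr (tpzL J p (g * g')) (n + m) :=
  (a.comp b).of_sub_compact (by simpa using (cpt_mul h hg g').neg)

/-- invertible symbols give Fredholm operators -/
theorem isFredholm_tpzL (h : CP J p) {g g' : Sy κ} (hg : Cm J p g) (hg' : Cm J p g')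
    (e : ∀ θ, g θ * g' θ * p = p) (e' : ∀ θ, g' θ * g θ * p = p) : (tpzL J p g).IsFredholm := by
  refine Fred93.isFredholm_of_parametrix (tpzL J p g') (tpzL J p g') ?_ ?_
  · have := cpt_mul h hg' g
    rwa [show tpzL J p (g' * g) = ContinuousLinearMap.id ℝ _ from
      ContinuousLinearMap.ext (tpzL_p h e')] at this
  · have := cpt_mul h hg g'
    rwa [show tpzL J p (g * g') = ContinuousLinearMap.id ℝ _ from
      ContinuousLinearMap.ext (tpzL_p h e)] at this

/-- symbols that are unitary on the range of `p` -/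
structure Un (J p : En κ) (g : Sy κ) : Prop where
  cm : Cm J p g
  l : ∀ θ, trn (g θ) * g θ * p = p
  r : ∀ θ, g θ * trn (g θ) * p = p

theorem Un.tS (h : CP J p) {g : Sy κ} (hg : Un J p g) : Un J p (tS g) :=
  ⟨hg.cm.tS h, fun θ => by
    have := hg.r θ
    rwa [← tS_apply, ← congrArg (fun g : Sy κ => g θ) (tS_tS g)] at this, fun θ => by
    have := hg.l θ
    rw [← tS_apply (Hol14.tS g), tS_tS]; exact this⟩

theorem Un.isFredholm (h : CP J p) {g : Sy κ} (hg : Un J p g) : (tpzL J p g).IsFredholm :=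
  isFredholm_tpzL h hg.cm (hg.cm.tS h) hg.r hg.l

/-- the index through the adjoint -/
theorem ind_adjoint {H : Type} [NormedAddCommGroup H] [InnerProductSpace ℝ H] [CompleteSpace H]
    {L : CL H H} (h : L.IsFredholm) :
    Fr L ((finrank ℝ L.ker : ℤ) - finrank ℝ (ContinuousLinearMap.adjoint L).ker) := by
  refine ⟨h, ?_⟩
  have hc : IsClosed (L.range : Set H) := h.isClosed_range
  have : CompleteSpace L.range := hc.completeSpace_coe
  rw [Fred93.ind, LinearMap.index_eq_finrank_sub, ← ContinuousLinearMap.orthogonal_range]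
  congr 2
  exact (L.range.quotientEquivOrthogonal).toLinearEquiv.finrank_eq

end Crest.Agent.X212.Hol14
end
end

-- ▼ part X212/Hol14/Index
section

/-!
# Row 212, Toeplitz cut: index, compactness, density
-/

set_option autoImplicit false
set_option linter.unusedSectionVars false
noncomputable section
open scoped Topology InnerProductSpace ENNReal
open MeasureTheory Set Function Filter Module

namespace Crest.Agent.X212.Hol14
open An Wz78
open Fred93 (Fr)

variable {κ : Type} [Fintype κ] [DecidableEq κ] {J p q C T : En κ}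

theorem mulC2 {g h k : Sy κ} (e : ∀ θ, g θ * h θ = k θ) (u : L2c κ) :
    mulC g (mulC h u) = mulC k u := by
  rw [← mulC_mul, show g * h = k from ContinuousMap.ext e]

theorem mulC_comm {g h g' h' : Sy κ} (e : ∀ θ, g θ * h θ = h' θ * g' θ) (u : L2c κ) :
    mulC g (mulC h u) = mulC h' (mulC g' u) := by
  rw [mulC2 (k := h' * g') e, mulC_mul]

theorem app {S T : En κ} (h : S = T) (v : Eu κ) : S v = T v := by rw [h]

theorem Cm.p_fc (h : CP J p) {g : Sy κ} (hg : Cm J p g) (ψ : Hd J p) (n : ℤ) :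
    p (fc J n (mulC g ψ)) = fc J n (mulC g ψ) := by
  rw [← fc_cS h.sk h.comm, mulC_comm (h' := g) (g' := cS p) fun θ => (hg θ).2, cS_coe h]

theorem Cm.tpz_eq_zero (h : CP J p) {g : Sy κ} (hg : Cm J p g) {ψ : Hd J p} :
    tpzL J p g ψ = 0 ↔ ∀ n, 0 ≤ n → fc J n (mulC g ψ) = 0 := by
  rw [Subtype.ext_iff, tpzL_coe, Submodule.coe_zero, PH_eq_zero h]
  simp only [hg.p_fc h]

/-- a subprojector -/
structure Sub (J p q : En κ) : Prop where
  hp : CP J p
  hq : CP J q
  pq : p * q = q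

theorem Sub.qp (h : Sub J p q) : q * p = q := by
  have := congrArg trn h.pq
  rwa [trn_mul, Sym.trn h.hp.sym, Sym.trn h.hq.sym] at this

/-- a quaternionic structure on the range of `q ≤ p` -/
structure Qt (J p q C : En κ) : Prop extends Sub J p q where
  anti : J * C = -(C * J)
  sq : C * C = -q
  sk : Skw C
  qC : q * C = C

/-- symbols with values in `Sp(1)` on the range of `q`, trivial on the range of `p - q` -/
structure Sp (J p q C : En κ) (g : Sy κ) : Prop extends Un J p g where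
  hq : ∀ θ, q * g θ = g θ * q
  hC : ∀ θ, C * g θ = g θ * C
  fix : ∀ θ, g θ * (p - q) = p - q

theorem Sp.tS (h : Qt J p q C) {g : Sy κ} (hg : Sp J p q C g) : Sp J p q C (tS g) where
  toUn := hg.toUn.tS h.hp
  hq θ := by
    have := congrArg trn (hg.hq θ)
    rw [trn_mul, trn_mul, Sym.trn h.hq.sym] at this
    exact this.symm
  hC θ := by
    have := congrArg trn (hg.hC θ)
    rw [trn_mul, trn_mul, Skw.trn h.sk, mul_neg, neg_mul, neg_inj] at this
    exact this.symm
  fix θ := by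
    have e : p * (p - q) = p - q := by rw [mul_sub, h.hp.idem, h.pq]
    rw [tS_apply, ← hg.fix θ, ← e, ← mul_assoc, ← mul_assoc, hg.l, ← mul_assoc, ← (hg.cm θ).2,
      mul_assoc, hg.fix, e]

theorem Sp.le_ker (h : Qt J p q C) {g : Sy κ} (hg : Sp J p q C g) :
    finrank ℝ (tpzL J p (Hol14.tS g)).ker ≤ finrank ℝ (tpzL J p g).ker := by
  have hg' := hg.tS h
  have hp := h.hp
  have := (hg.toUn.isFredholm hp).finite_ker
  have pC : p * C = C := by rw [← h.qC, ← mul_assoc, h.pq]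
  let Φ : CL (L2c κ) (L2c κ) := mulC (eS J (-1)) ∘L mulC (cS C) ∘L mulC (Hol14.tS g)
  have e1 : ∀ (n : ℤ) u, fc J n (mulC (eS J (-1)) (mulC (cS C) u)) = C (fc J (-(n + 1)) u) :=
    fun n u => by rw [fc_eS hp.toCJ, fc_cS_anti hp.sk h.anti, sub_neg_eq_add]
  have e2 : ∀ (n : ℤ) u, fc J n (Φ u) = C (fc J (-(n + 1)) (mulC (Hol14.tS g) u)) :=
    fun n u => e1 _ _
  have e3 : ∀ ψ : Hd J p, mulC g (mulC (Hol14.tS g) ψ) = ψ := fun ψ => by
    rw [mulC2 (k := g * Hol14.tS g) fun _ => rfl, ← cS_coe hp ψ,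
      mulC2 (g := g * Hol14.tS g) (h := cS p) (k := cS p) hg.r]
  have m1 : ∀ f : (tpzL J p (Hol14.tS g)).ker, Φ f.1.1 ∈ Hd J p := fun f =>
    (mem_Hd hp).2 ⟨fun n hn => by
      rw [e2, (hg'.cm.tpz_eq_zero hp).1 f.2 _ (by omega), map_zero],
      fun n => by rw [e2]; exact app pC _⟩
  have m2 : ∀ f : (tpzL J p (Hol14.tS g)).ker, tpzL J p g ⟨_, m1 f⟩ = 0 := fun f =>
    (hg.cm.tpz_eq_zero hp).2 fun n hn => by
      change fc J n (mulC g (mulC (eS J (-1)) (mulC (cS C) (mulC (Hol14.tS g) f.1.1)))) = 0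
      rw [mulC_comm (h' := eS J (-1)) (g' := g) fun θ => (csE_comm (hg.cm θ).1 _).symm,
        mulC_comm (g := g) (h' := cS C) (g' := g) fun θ => (hg.hC θ).symm, e3, e1,
        ((mem_Hd hp).1 f.1.2).1 _ (by omega), map_zero]
  let Ψ : (tpzL J p (Hol14.tS g)).ker →ₗ[ℝ] (tpzL J p g).ker :=
    { toFun := fun f => ⟨⟨_, m1 f⟩, m2 f⟩
      map_add' := fun f f' => Subtype.ext (Subtype.ext (map_add Φ _ _))
      map_smul' := fun r f => Subtype.ext (Subtype.ext (map_smul Φ _ _)) }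
  refine LinearMap.finrank_le_finrank_of_injective (f := Ψ) ((injective_iff_map_eq_zero _).2
    fun f hf => Subtype.ext (Subtype.ext (eq_zero_of_fc hp.toCJ fun n => ?_)))
  have h0 : Φ f.1.1 = 0 := congrArg (fun x => x.1.1) hf
  have h1 : mulC (cS q) (mulC (Hol14.tS g) f.1.1) = 0 := eq_zero_of_fc hp.toCJ fun k => by
    have := (e2 (-(k + 1)) _).symm.trans (congrArg (fc J (-(k + 1))) h0)
    rw [map_zero, show -(-(k + 1) + 1) = k by ring] at this
    rw [fc_cS hp.sk h.hq.comm, ← neg_eq_zero]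
    exact (app h.sq _).symm.trans (by rw [mul_apply_eq_comp, this, map_zero])
  have h2 : mulC (cS q) f.1.1 = 0 := by
    have := congrArg (mulC g) h1
    rwa [map_zero, mulC_comm (g := g) (h' := cS q) (g' := g) fun θ => (hg.hq θ).symm, e3] at this
  have hJ : J * (p - q) = (p - q) * J := by rw [mul_sub, sub_mul, hp.comm, h.hq.comm]
  rcases lt_or_ge n 0 with hn | hn
  · exact ((mem_Hd hp).1 f.1.2).1 n hn
  · have h3 := congrArg (p - q) ((hg'.cm.tpz_eq_zero hp).1 f.2 n hn)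
    rw [map_zero, ← fc_cS hp.sk hJ, mulC2 (k := cS (p - q)) fun θ => (by
      change (p - q) * _ = p - q
      rw [sub_mul, (hg'.cm θ).2, hg'.hq, ← mul_sub, hg'.fix]), fc_cS hp.sk hJ, sub_apply,
      ((mem_Hd hp).1 f.1.2).2, ← fc_cS hp.sk h.hq.comm, h2, map_zero, sub_zero] at h3
    exact h3

/-- **Index zero** -/
theorem Sp.fr (h : Qt J p q C) {g : Sy κ} (hg : Sp J p q C g) : Fr (tpzL J p g) 0 := by
  have h1 := hg.le_ker h
  have h2 := (hg.tS h).le_ker h
  rw [tS_tS] at h2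
  refine (ind_adjoint (hg.toUn.isFredholm h.hp)).cast ?_
  rw [adjoint_tpzL]; omega

/-! ### scalar symbols -/

/-- the rank of a projector -/
abbrev rk (p : En κ) : ℕ := finrank ℝ p.range

theorem un_fS (h : CP J p) {φ : C(UnitAddCircle, ℂ)} (hφ : ∀ θ, ‖φ θ‖ = 1) : Un J p (fS J φ) where
  cm := cm_fS h φ
  l θ := by rw [fS_apply, trn_csE h.sk, ← csE_mul h.sq, Complex.conj_mul', hφ]; simp
  r θ := by rw [fS_apply, trn_csE h.sk, ← csE_mul h.sq, Complex.mul_conj', hφ]; simp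

theorem un_eS (h : CP J p) (n : ℤ) : Un J p (eS J n) := un_fS h fun _ => Circle.norm_coe _

theorem fr_back (h : CP J p) : Fr (tpzL J p (eS J (-1))) (rk p) := by
  have hF := Fr.of ((un_eS h (-1)).isFredholm h)
  have hs : Surjective (tpzL J p (eS J (-1))) := fun ψ => by
    refine ⟨⟨mulC (eS J 1) ψ, (mem_Hd h).2 ⟨fun n hn => ?_, (cm_fS h _).p_fc h ψ⟩⟩, Subtype.ext ?_⟩
    · rw [fc_eS h.toCJ, ((mem_Hd h).1 ψ.2).1 _ (by omega)]
    · rw [tpzL_coe, ← mulC_mul, ← eS_add h.sq, neg_add_cancel, eS_zero, mulC_one, PH_coe]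
  refine hF.cast ((hF.finrank_ker hs).symm.trans (congrArg _ ?_))
  have m0 : ∀ v : p.range, p v = v := by rintro ⟨_, v, rfl⟩; exact h.pp v
  let Ψ : p.range →ₗ[ℝ] (tpzL J p (eS J (-1))).ker :=
    { toFun := fun v => ⟨⟨md J 0 v, md_mem le_rfl (m0 v)⟩, ((cm_fS h _).tpz_eq_zero h).2 fun n hn => by
        rw [fc_eS h.toCJ, fc_md h.toCJ, if_neg (by omega)]⟩
      map_add' := fun f f' => Subtype.ext (Subtype.ext (map_add (md J 0) _ _))
      map_smul' := fun r f => Subtype.ext (Subtype.ext (map_smul (md J 0) _ _)) }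
  refine (LinearEquiv.ofBijective Ψ ⟨(injective_iff_map_eq_zero _).2 fun v hv => ?_,
    fun f => ⟨⟨fc J 0 f.1.1, fc J 0 f.1.1, ((mem_Hd h).1 f.1.2).2 0⟩, ?_⟩⟩).finrank_eq.symm
  · have : md J 0 v = 0 := congrArg (fun x => x.1.1) hv
    exact Subtype.ext (norm_eq_zero.1 (by rw [← norm_md h.toCJ 0, this, norm_zero]))
  · refine Subtype.ext (Subtype.ext (ext_fc h.toCJ fun n => ?_))
    change fc J n (md J 0 (fc J 0 f.1.1)) = _
    rw [fc_md h.toCJ]
    rcases lt_trichotomy n 0 with hn | rfl | hn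
    · rw [if_neg hn.ne, ((mem_Hd h).1 f.1.2).1 n hn]
    · rfl
    · have := ((cm_fS h _).tpz_eq_zero h).1 f.2 (n - 1) (by omega)
      rw [fc_eS h.toCJ, sub_neg_eq_add, sub_add_cancel] at this
      rw [if_neg hn.ne', this]

theorem fr_one : Fr (tpzL J p 1) 0 := Fr.id.congr tpzL_one

theorem fr_eS (h : CP J p) (k : ℤ) : Fr (tpzL J p (eS J k)) (-k * rk p) := by
  have st : ∀ k : ℤ, Fr (tpzL J p (eS J (-1 + k))) (rk p + Fred93.ind (tpzL J p (eS J k))) :=
    fun k => eS_add h.sq (-1) k ▸ fr_mul h (cm_fS h _) (fr_back h) (.of ((un_eS h k).isFredholm h))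
  induction k using Int.induction_on with
  | zero => rw [eS_zero]; exact fr_one.cast (by simp)
  | succ k ih =>
    have := st (k + 1)
    rw [show -1 + ((k : ℤ) + 1) = k by ring] at this
    exact (Fr.of ((un_eS h _).isFredholm h)).cast (by have := this.unique ih; linarith)
  | pred k ih =>
    have := st (-k)
    rw [show -1 + -(k : ℤ) = -k - 1 by ring, ih.2] at this
    exact this.cast (by ring)

/-- the symbol `exp (i ψ)` -/
def exS (ψ : C(UnitAddCircle, ℝ)) : C(UnitAddCircle, ℂ) :=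
  ⟨fun θ => Complex.exp (ψ θ * Complex.I), by fun_prop⟩

theorem norm_exS (ψ : C(UnitAddCircle, ℝ)) (θ : UnitAddCircle) : ‖exS ψ θ‖ = 1 :=
  Complex.norm_exp_ofReal_mul_I _

theorem fr_exS (h : CP J p) (ψ : C(UnitAddCircle, ℝ)) : Fr (tpzL J p (fS J (exS ψ))) 0 := by
  have hc : Continuous fun t : ℝ => exS (t • ψ) :=
    ContinuousMap.continuous_of_continuous_uncurry _ (by
      change Continuous fun x : ℝ × UnitAddCircle => Complex.exp (((x.1 * ψ x.2 : ℝ) : ℂ) * Complex.I)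
      fun_prop)
  have := Fr.of_path (L := fun t : ℝ => tpzL J p (fS J (exS (t • ψ))))
    ((tpzL J p).continuous.comp ((fS J).continuous.comp hc)).continuousOn
    (fun t _ => (un_fS h (norm_exS _)).isFredholm h) (n := 0) (by
      rw [show exS ((0 : ℝ) • ψ) = 1 from ContinuousMap.ext fun θ => by simp [exS], fS_one]
      exact fr_one)
  simpa using this

/-- **The index of a scalar symbol of winding number `k`** -/
theorem fr_wind (h : CP J p) (k : ℤ) (ψ : C(UnitAddCircle, ℝ)) {g : Sy κ}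
    (hg : ∀ θ, g θ * p = csE J (fourier k θ * exS ψ θ) * p) : Fr (tpzL J p g) (-k * rk p) := by
  rw [tpzL_congr h (g' := eS J k * fS J (exS ψ)) fun θ => by rw [hg, csE_mul h.sq]; rfl]
  exact (fr_mul h (cm_fS h _) (fr_eS h k) (fr_exS h ψ)).cast (add_zero _)

/-! ### finite rank terms -/

theorem frk_coe (m n : ℕ) (Ξ : En κ) (ψ : Hd J p) :
    (frk J p m n Ξ ψ : L2c κ) = PH J p (md J m (Ξ (fc J n ψ))) := rfl

theorem frk_coe' (h : CP J p) (m n : ℕ) (Ξ : En κ) (ψ : Hd J p) :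
    (frk J p m n Ξ ψ : L2c κ) = md J m (p (Ξ (fc J n ψ))) := by
  rw [frk_coe, PH_md h, if_pos (by positivity)]

theorem cpt_frk (m n : ℕ) (Ξ : En κ) : IsCompactOperator (frk J p m n Ξ) :=
  cpt_fin ((Hd J p).orthogonalProjectionOnto ∘L md J m) (Ξ ∘L fc J n ∘L (Hd J p).subtypeL)

theorem norm_fc (h : CJ J) (n : ℤ) (u : L2c κ) : ‖fc J n u‖ ≤ ‖u‖ := by
  have h1 := inner_fc (J := J) n u (fc J n u)
  have h2 := real_inner_le_norm (md J n (fc J n u)) u
  rw [← h1, real_inner_self_eq_norm_sq, norm_md h] at h2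
  rcases (norm_nonneg (fc J n u)).eq_or_lt with h0 | h0
  · rw [← h0]; positivity
  · nlinarith

theorem norm_frk (h : CJ J) (m n : ℕ) (Ξ : En κ) : ‖frk J p m n Ξ‖ ≤ ‖Ξ‖ :=
  ContinuousLinearMap.opNorm_le_bound _ (norm_nonneg Ξ) fun ψ =>
    ((Hd J p).norm_starProjection_apply_le _).trans (by
      change ‖md J m (Ξ (fc J n ψ))‖ ≤ _
      rw [norm_md h]
      exact (Ξ.le_opNorm _).trans (by gcongr; exact norm_fc h n ψ))

/-- the finite rank terms as a linear map -/
def frkL (J p : En κ) (m n : ℕ) : CL (En κ) (CL (Hd J p) (Hd J p)) :=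
  LinearMap.toContinuousLinearMap
    { toFun := frk J p m n
      map_add' := fun S T => by
        simp only [frk, ContinuousLinearMap.add_comp, ContinuousLinearMap.comp_add, cpr_add]
      map_smul' := fun r T => by
        simp only [frk, ContinuousLinearMap.smul_comp, ContinuousLinearMap.comp_smul, cpr_smul,
          RingHom.id_apply] }

theorem frkL_apply (m n : ℕ) (Ξ : En κ) : frkL J p m n Ξ = frk J p m n Ξ := rfl

theorem exists_fc_ne (h : CP J p) {ψ : Hd J p} (hψ : ψ ≠ 0) : ∃ n : ℕ, fc J n ψ ≠ 0 := by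
  by_contra hn
  refine hψ (Subtype.ext (eq_zero_of_fc h.toCJ fun n => ?_))
  rcases lt_or_ge n 0 with h0 | h0
  · exact ((mem_Hd h).1 ψ.2).1 n h0
  · lift n to ℕ using h0
    exact not_not.1 fun h => hn ⟨n, h⟩

/-- **Density**: a vector orthogonal to all terms has coefficients orthogonal to all `Ξ ψ̂(n)` -/
theorem orth_frk (h : CP J p) {m n : ℕ} {Ξ : En κ} {ψ χ : Hd J p} :
    ⟪frk J p m n Ξ ψ, χ⟫_ℝ = ⟪Ξ (fc J n ψ), fc J m χ⟫_ℝ := by
  rw [Submodule.coe_inner, frk_coe' h, ← inner_fc, h.sym, ((mem_Hd h).1 χ.2).2]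

theorem eq_zero_of_orth (h : Sub J p q) {X : Set (En κ)} {ψ χ : Hd J p} {n : ℕ}
    (hX : ∀ w, (∀ Ξ ∈ X, ⟪Ξ (fc J n ψ), w⟫_ℝ = 0) → q w = 0)
    (hχ : ∀ Ξ ∈ X, ∀ m, ⟪frk J p m n Ξ ψ, χ⟫_ℝ = 0) : mulC (cS q) χ = 0 :=
  eq_zero_of_fc h.hp.toCJ fun k => by
    rw [fc_cS h.hp.sk h.hq.comm]
    rcases lt_or_ge k 0 with h0 | h0
    · rw [((mem_Hd h.hp).1 χ.2).1 k h0, map_zero]
    · lift k to ℕ using h0
      exact hX _ fun Ξ hΞ => (orth_frk h.hp).symm.trans (hχ Ξ hΞ k)

/-! ### compactness -/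

/-- normalised kernel elements of operators converging to a Fredholm operator converge -/
theorem exists_lim_ker {H H' α : Type} [NormedAddCommGroup H] [NormedSpace ℝ H] [CompleteSpace H]
    [NormedAddCommGroup H'] [NormedSpace ℝ H'] [CompleteSpace H'] {L : CL H H'} (hL : L.IsFredholm)
    (𝒰 : Ultrafilter α) {A : α → CL H H'} (hA : Tendsto A 𝒰 (𝓝 L)) {ψ : α → H}
    (h1 : ∀ᶠ i in 𝒰, ‖ψ i‖ = 1) (h0 : ∀ᶠ i in 𝒰, A i (ψ i) = 0) :
    ∃ χ, Tendsto ψ 𝒰 (𝓝 χ) ∧ ‖χ‖ = 1 ∧ L χ = 0 := by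
  obtain ⟨π, C, hC, hπ, hE⟩ := Fred93.exists_est hL
  have := hL.finite_ker
  have : ProperSpace L.ker := FiniteDimensional.proper_real _
  obtain ⟨χ, -, hχ⟩ := (isCompact_closedBall (0 : L.ker) ‖π‖).ultrafilter_le_nhds
    (𝒰.map fun i => π (ψ i)) (by
      rw [le_principal_iff, Ultrafilter.coe_map, mem_map]
      filter_upwards [h1] with i hi
      simpa [hi] using π.le_opNorm (ψ i))
  have t1 : Tendsto (fun i => L (ψ i)) 𝒰 (𝓝 0) := by
    refine squeeze_zero_norm' (a := fun i => ‖A i - L‖) ?_ (tendsto_iff_norm_sub_tendsto_zero.1 hA)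
    filter_upwards [h1, h0] with i a b
    simpa [a, b] using (A i - L).le_opNorm (ψ i)
  have t2 : Tendsto ψ 𝒰 (𝓝 χ.1) := by
    refine tendsto_iff_norm_sub_tendsto_zero.2 (squeeze_zero (fun _ => norm_nonneg _)
      (fun i => hE (ψ i - χ.1)) ?_)
    have : L χ.1 = 0 := χ.2
    simp only [map_sub, this, sub_zero, hπ]
    simpa using (t1.norm.add (tendsto_iff_norm_sub_tendsto_zero.1 hχ)).const_mul C
  exact ⟨χ, t2, tendsto_nhds_unique t2.norm (tendsto_const_nhds.congr' (h1.mono fun _ h => h.symm)),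
    χ.2⟩

end Crest.Agent.X212.Hol14
end
end

-- ▼ part X212/Hol14/Rep
section

/-!
# Row 212, Toeplitz cut: constant operators on Hardy spaces, the complex structure, splitting
-/

set_option autoImplicit false
set_option linter.unusedSectionVars false
noncomputable section
open scoped Topology InnerProductSpace ENNReal
open MeasureTheory Set Function Filter Module

namespace Crest.Agent.X212.Hol14
open An Wz78
open Fred93 (Fr)

variable {κ κ' : Type} [Fintype κ] [DecidableEq κ] [Fintype κ'] [DecidableEq κ']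
  {J p q C T : En κ} {J' p' : En κ'} {u : CL (Eu κ) (Eu κ')}

/-- constant operators between two fibres -/
abbrev cL (u : CL (Eu κ) (Eu κ')) : CL (L2c κ) (L2c κ') := u.compLpL 2 μc

theorem cL_mulC {g : Sy κ} {g' : Sy κ'} (e : ∀ θ, u ∘L g θ = g' θ ∘L u) (f : L2c κ) :
    cL u (mulC g f) = mulC g' (cL u f) := Lp.ext <| by
  filter_upwards [mulC_const u (mulC g f), mulC_ae g f, mulC_ae g' (cL u f), mulC_const u f]
    with θ a b c d
  rw [a, b, c, d]
  exact congrArg (fun T : CL (Eu κ) (Eu κ') => T (f θ)) (e θ)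

theorem cL_cL {κ'' : Type} [Fintype κ''] (w : CL (Eu κ') (Eu κ'')) (u : CL (Eu κ) (Eu κ'))
    (f : L2c κ) : cL w (cL u f) = cL (w ∘L u) f := Lp.ext <| by
  filter_upwards [mulC_const w (cL u f), mulC_const u f, mulC_const (w ∘L u) f] with θ a b c
  rw [a, b, c]; rfl

theorem inner_cL (f : L2c κ) (h : L2c κ') : ⟪cL u f, h⟫_ℝ = ⟪f, cL (trn u) h⟫_ℝ := by
  rw [L2.inner_def, L2.inner_def]
  refine integral_congr_ae ?_
  filter_upwards [mulC_const u f, mulC_const (trn u) h] with θ h1 h2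
  rw [h1, h2, ContinuousLinearMap.adjoint_inner_right]

theorem csE_int (h : u ∘L J = J' ∘L u) (c : ℂ) : u ∘L csE J c = csE J' c ∘L u := by
  simp only [csE, ContinuousLinearMap.comp_add, ContinuousLinearMap.add_comp,
    ContinuousLinearMap.comp_smul, ContinuousLinearMap.smul_comp, h]
  rfl

theorem cL_md (h : u ∘L J = J' ∘L u) (n : ℤ) (v : Eu κ) : cL u (md J n v) = md J' n (u v) := by
  rw [md_eq, md_eq, cL_mulC (g' := eS J' n) fun _ => csE_int h _]
  refine congrArg _ (Lp.ext ?_)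
  filter_upwards [mulC_const u (kL v), kL_ae v, kL_ae (u v)] with θ a b c
  rw [a, b, c]

theorem trn_int (hJ : Skw J) (hJ' : Skw J') (h : u ∘L J = J' ∘L u) : trn u ∘L J' = J ∘L trn u := by
  have := congrArg trn h
  rw [trn, trn, ContinuousLinearMap.adjoint_comp, ContinuousLinearMap.adjoint_comp,
    show ContinuousLinearMap.adjoint J = _ from Skw.trn hJ,
    show ContinuousLinearMap.adjoint J' = _ from Skw.trn hJ', ContinuousLinearMap.neg_comp,
    ContinuousLinearMap.comp_neg, neg_inj] at this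
  exact this.symm

theorem fc_cL (hJ : Skw J) (hJ' : Skw J') (h : u ∘L J = J' ∘L u) (n : ℤ) (f : L2c κ) :
    fc J' n (cL u f) = u (fc J n f) := ext_inner_left ℝ fun v => by
  rw [inner_fc, real_inner_comm, inner_cL, cL_md (trn_int hJ hJ' h), real_inner_comm, ← inner_fc,
    ContinuousLinearMap.adjoint_inner_left]

/-- intertwiners of the pairs `(J, p)` -/
structure It (J p : En κ) (J' p' : En κ') (u : CL (Eu κ) (Eu κ')) : Prop where
  h : CP J p
  h' : CP J' p'
  J : u ∘L J = J' ∘L u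
  p : u ∘L p = p' ∘L u

namespace It
variable (i : It J p J' p' u)
include i

theorem fc (n : ℤ) (f : L2c κ) : fc J' n (cL u f) = u (fc J n f) := fc_cL i.h.sk i.h'.sk i.J n f

theorem PH (f : L2c κ) : PH J' p' (cL u f) = cL u (PH J p f) := ext_fc i.h'.toCJ fun n => by
  rw [fc_PH i.h', i.fc, i.fc, fc_PH i.h]
  split_ifs
  · exact (congrArg (fun T : CL (Eu κ) (Eu κ') => T _) i.p).symm
  · exact (map_zero u).symm

theorem mem (ψ : Hd J p) : cL u ψ ∈ Hd J' p' :=
  Submodule.starProjection_eq_self_iff.1 (by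
    change Hol14.PH J' p' _ = _
    rw [i.PH, PH_coe])

end It

/-- the operator between Hardy spaces induced by `u` -/
def rH (J p : En κ) (J' p' : En κ') (u : CL (Eu κ) (Eu κ')) : CL (Hd J p) (Hd J' p') :=
  (Hd J' p').orthogonalProjectionOnto ∘L cL u ∘L (Hd J p).subtypeL

theorem It.rH_coe (i : It J p J' p' u) (ψ : Hd J p) : (rH J p J' p' u ψ : L2c κ') = cL u ψ :=
  PH_coe ⟨_, i.mem ψ⟩

theorem rH_eq (T : En κ) : rH J p J p T = tpzL J p (cS T) :=
  ContinuousLinearMap.ext fun ψ => Subtype.ext (by rw [tpzL_coe, mulC_cS]; rfl)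

theorem It.rH_tpzL (i : It J p J' p' u) {g : Sy κ} {g' : Sy κ'}
    (e : ∀ θ, u ∘L g θ = g' θ ∘L u) (ψ : Hd J p) :
    rH J p J' p' u (tpzL J p g ψ) = tpzL J' p' g' (rH J p J' p' u ψ) := Subtype.ext <| by
  rw [i.rH_coe, tpzL_coe, tpzL_coe, i.rH_coe, ← cL_mulC e, i.PH]

theorem It.rH_frk (i : It J p J' p' u) {Ξ : En κ} {Ξ' : En κ'} (e : u ∘L Ξ = Ξ' ∘L u) (m n : ℕ)
    (ψ : Hd J p) : rH J p J' p' u (frk J p m n Ξ ψ) = frk J' p' m n Ξ' (rH J p J' p' u ψ) :=
  Subtype.ext <| by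
    rw [i.rH_coe, frk_coe, frk_coe, i.rH_coe, i.fc, ← i.PH, cL_md i.J]
    exact congrArg (fun v => Hol14.PH J' p' (md J' m v))
      (congrArg (fun T : CL (Eu κ) (Eu κ') => T _) e)

theorem It.rH_rH {κ'' : Type} [Fintype κ''] [DecidableEq κ''] {J'' p'' : En κ''}
    {w : CL (Eu κ') (Eu κ'')} (i : It J p J' p' u) (ψ : Hd J p) :
    rH J' p' J'' p'' w (rH J p J' p' u ψ) = rH J p J'' p'' (w ∘L u) ψ := Subtype.ext <| by
  change Hol14.PH J'' p'' (cL w (rH J p J' p' u ψ)) = Hol14.PH J'' p'' (cL (w ∘L u) ψ)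
  rw [i.rH_coe, cL_cL]

theorem rH_p (h : CP J p) (e : T * p = p) (ψ : Hd J p) : rH J p J p T ψ = ψ := by
  rw [rH_eq, tpzL_p h fun _ => e]

theorem inner_rH (ψ : Hd J p) (χ : Hd J' p') :
    ⟪rH J p J' p' u ψ, χ⟫_ℝ = ⟪ψ, rH J' p' J p (trn u) χ⟫_ℝ := by
  rw [Submodule.coe_inner, Submodule.coe_inner]
  change ⟪PH J' p' (cL u ψ), _⟫_ℝ = ⟪_, PH J p (cL (trn u) χ)⟫_ℝ
  rw [Submodule.inner_starProjection_left_eq_right,
    ← Submodule.inner_starProjection_left_eq_right _ ψ.1, PH_coe, PH_coe, inner_cL]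

theorem It.norm_rH (i : It J p J' p' u) (e : (trn u ∘L u) * p = p) (ψ : Hd J p) :
    ‖rH J p J' p' u ψ‖ = ‖ψ‖ := by
  have := inner_rH (u := u) ψ (rH J p J' p' u ψ)
  rw [i.rH_rH, rH_p i.h e, real_inner_self_eq_norm_sq, real_inner_self_eq_norm_sq] at this
  exact (pow_left_inj₀ (norm_nonneg _) (norm_nonneg _) two_ne_zero).1 this

/-- `rH` as a linear map of `u` -/
def rHL (J p : En κ) : CL (En κ) (CL (Hd J p) (Hd J p)) := LinearMap.toContinuousLinearMap
  { toFun := rH J p J p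
    map_add' := fun S T => by
      rw [rH_eq, rH_eq, rH_eq, ← map_add]; rfl
    map_smul' := fun r T => by
      rw [rH_eq, rH_eq, RingHom.id_apply, ← map_smul]; rfl }

theorem rHL_apply (T : En κ) : rHL J p T = rH J p J p T := rfl

theorem CP.it (h : CP J p) (hJ : J * T = T * J) (hp : p * T = T * p) : It J p J p T :=
  ⟨h, h, hJ.symm, hp.symm⟩

/-- the complex structure of the Hardy space -/
def JH (J p : En κ) : CL (Hd J p) (Hd J p) := rH J p J p J

theorem CP.itJ (h : CP J p) : It J p J p J := h.it rfl h.comm.symm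

theorem JH_coe (h : CP J p) (ψ : Hd J p) : (JH J p ψ : L2c κ) = cL J ψ := h.itJ.rH_coe ψ

theorem JH_JH (h : CP J p) (ψ : Hd J p) : JH J p (JH J p ψ) = -ψ := by
  rw [JH, h.itJ.rH_rH, show J ∘L J = -1 from h.sq, ← rHL_apply, map_neg, neg_apply, rHL_apply,
    rH_p h (one_mul p)]

theorem JH_skew (h : CP J p) (ψ χ : Hd J p) : ⟪JH J p ψ, χ⟫_ℝ = -⟪ψ, JH J p χ⟫_ℝ := by
  rw [JH, inner_rH, Skw.trn h.sk, ← rHL_apply, map_neg, neg_apply, inner_neg_right, rHL_apply]

theorem JH_tpzL (h : CP J p) {g : Sy κ} (e : ∀ θ, J * g θ = g θ * J) (ψ : Hd J p) :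
    JH J p (tpzL J p g ψ) = tpzL J p g (JH J p ψ) := h.itJ.rH_tpzL e ψ

theorem JH_frk (h : CP J p) {Ξ : En κ} (e : J * Ξ = Ξ * J) (m n : ℕ) (ψ : Hd J p) :
    JH J p (frk J p m n Ξ ψ) = frk J p m n Ξ (JH J p ψ) := h.itJ.rH_frk e m n ψ

theorem It.rH_JH (i : It J p J' p' u) (ψ : Hd J p) :
    rH J p J' p' u (JH J p ψ) = JH J' p' (rH J p J' p' u ψ) := by
  rw [JH, JH, i.h.itJ.rH_rH, i.rH_rH, i.J]

theorem rH_csE (h : CP J p) (c : ℂ) (ψ : Hd J p) :
    rH J p J p (csE J c) ψ = c.re • ψ + c.im • JH J p ψ := by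
  rw [← rHL_apply, csE, map_add, map_smul, map_smul, add_apply, smul_apply, smul_apply, rHL_apply,
    rH_p h (one_mul p)]
  rfl

/-! ### subprojectors -/

theorem Sub.le (h : Sub J p q) : Hd J q ≤ Hd J p := fun f hf => by
  obtain ⟨a, b⟩ := (mem_Hd h.hq).1 hf
  exact (mem_Hd h.hp).2 ⟨a, fun n => by rw [← b n]; exact app h.pq _⟩

theorem Sub.it (h : Sub J p q) : It J p J q q :=
  ⟨h.hp, h.hq, h.hq.comm.symm, h.qp.trans h.hq.idem.symm⟩

theorem Sub.it' (h : Sub J p q) : It J q J p q :=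
  ⟨h.hq, h.hp, h.hq.comm.symm, h.hq.idem.trans h.pq.symm⟩

theorem Sub.it'' (h : Sub J p q) : It J p J p q :=
  ⟨h.hp, h.hp, h.hq.comm.symm, h.qp.trans h.pq.symm⟩

/-- the inclusion of Hardy spaces is `rH J q J p q` -/
theorem Sub.incl_coe (h : Sub J p q) (ψ : Hd J q) : (rH J q J p q ψ : L2c κ) = ψ := by
  rw [h.it'.rH_coe, ← mulC_cS, cS_coe h.hq]

theorem Sub.proj_incl (h : Sub J p q) (ψ : Hd J q) : rH J p J q q (rH J q J p q ψ) = ψ := by
  rw [h.it'.rH_rH, rH_p h.hq (by rw [show q ∘L q = q from h.hq.idem, h.hq.idem])]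

theorem isClosed_sp : IsClosed {g : Sy κ | Sp J p q C g} := by
  have e : {g : Sy κ | Sp J p q C g} = ⋂ θ, (fun g : Sy κ => g θ) ⁻¹' {T | ((J * T = T * J ∧
      p * T = T * p) ∧ trn T * T * p = p ∧ T * trn T * p = p) ∧ q * T = T * q ∧ C * T = T * C ∧
      T * (p - q) = p - q} := by
    ext g
    simp only [mem_iInter, mem_preimage, mem_ofPred_eq]
    exact ⟨fun h θ => ⟨⟨h.cm θ, h.l θ, h.r θ⟩, h.hq θ, h.hC θ, h.fix θ⟩, fun h =>
      ⟨⟨fun θ => (h θ).1.1, fun θ => (h θ).1.2.1, fun θ => (h θ).1.2.2⟩, fun θ => (h θ).2.1,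
        fun θ => (h θ).2.2.1, fun θ => (h θ).2.2.2⟩⟩
  have ht : Continuous (trn : En κ → En κ) := ContinuousLinearMap.adjoint.continuous
  rw [e]
  refine isClosed_iInter fun θ => IsClosed.preimage (continuous_eval_const θ) ?_
  refine (((isClosed_eq ?_ ?_).inter (isClosed_eq ?_ ?_)).inter ((isClosed_eq ?_ ?_).inter
    (isClosed_eq ?_ ?_))).inter ((isClosed_eq ?_ ?_).inter ((isClosed_eq ?_ ?_).inter
    (isClosed_eq ?_ ?_))) <;> fun_prop

end Crest.Agent.X212.Hol14
end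
end

-- ▼ part X212/Hol14/Pt
section

/-!
# Row 212, Toeplitz cut: the fibre `U` as a quaternionic line
-/

set_option autoImplicit false
set_option linter.unusedSectionVars false
noncomputable section
open scoped Manifold ContDiff Topology InnerProductSpace
open Set Function Module

namespace Crest.Agent.X212.Hol14
open An Wz78
open Cut54 (mu' i1 i2 i3 v1 v2 v3 cW sdT)

section ring
variable {𝔸 : Type*} [Ring 𝔸] [Algebra ℝ 𝔸] {e i j l J k X C : 𝔸} {n : ℝ}

theorem key2 (h : Cut54.Qt e i j l J k) {u1 u2 u3 : ℝ} (hu : u1 * u1 + u2 * u2 + u3 * u3 = 1)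
    (a1 a2 a3 b1 b2 b3 : ℝ) : ∃ c1 c2 c3 : ℝ, c1 * u1 + c2 * u2 + c3 * u3 = 0 ∧
    (e - J * (u1 • i + u2 • j + u3 • l)) * ((a1 • i + a2 • j + a3 • l) * k +
      (b1 • i + b2 • j + b3 • l) * (J * k)) * (e - J * (u1 • i + u2 • j + u3 • l)) =
    (c1 • i + c2 • j + c3 • l) * k * (e - J * (u1 • i + u2 • j + u3 • l)) := by
  have g : ∀ c1 c2 c3 : ℝ, (c1 • i + c2 • j + c3 • l) * k * (e - J * (u1 • i + u2 • j + u3 • l)) =
      (c1 • i + c2 • j + c3 • l) * k + J * ((c2 * u3 - c3 * u2) • i + (c3 * u1 - c1 * u3) • j +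
        (c1 * u2 - c2 * u1) • l) * k - (c1 * u1 + c2 * u2 + c3 * u3) • (J * (e * k)) :=
    fun _ _ _ => by
      simp only [mul_add, add_mul, mul_sub, mul_assoc, smul_mul_assoc, mul_smul_comm,
        h.ke, h.k1, h.k2, h.k3, mu' h.kJ, mu' h.J1, mu' h.J2, mu' h.J3, mu' h.f1, mu' h.f2,
        mu' h.f3, mu' h.m11, mu' h.m22, mu' h.m33, mu' h.m12, mu' h.m21, mu' h.m23, mu' h.m32,
        mu' h.m31, mu' h.m13, mul_neg, neg_mul, neg_neg, smul_neg]
      module
  have z : ((1 + 1) * a1 - 2 * (a1 * u1 + a2 * u2 + a3 * u3) * u1 + 2 * (u2 * b3 - u3 * b2)) * u1 +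
      ((1 + 1) * a2 - 2 * (a1 * u1 + a2 * u2 + a3 * u3) * u2 + 2 * (u3 * b1 - u1 * b3)) * u2 +
      ((1 + 1) * a3 - 2 * (a1 * u1 + a2 * u2 + a3 * u3) * u3 + 2 * (u1 * b2 - u2 * b1)) * u3 = 0 := by
    linear_combination (-2 * (a1 * u1 + a2 * u2 + a3 * u3)) * hu
  refine ⟨_, _, _, z, ?_⟩
  rw [h.key _ _ _ _ _ _ _ _ _ 1 hu.symm _ rfl _ rfl, g, z, zero_smul, sub_zero]
  congr 3
  match_scalars
  · linear_combination (-2 * b1) * hu
  · linear_combination (-2 * b2) * hu
  · linear_combination (-2 * b3) * hu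

/-- the local algebra of a cut -/
structure Lc (e J X C k : 𝔸) (n : ℝ) : Prop where
  ee : e * e = e
  eX : e * X = X
  Xe : X * e = X
  XX : X * X = -e
  eC : e * C = C
  Ce : C * e = C
  CC : C * C = -(n • e)
  XC : X * C = -(C * X)
  JJ : J * J = -1
  Je : e * J = J * e
  XJ : X * J = J * X
  CJ : C * J = J * C
  kJ : k * J = -(J * k)
  ke : k * e = e * k
  kX : k * X = X * k
  kC : k * C = C * k
  kk : e * (k * k) = e

theorem lc_of (h : Cut54.Qt e i j l J k) (hk : e * (k * k) = e) {u1 u2 u3 c1 c2 c3 : ℝ}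
    (hu : u1 * u1 + u2 * u2 + u3 * u3 = 1) (hc : c1 * u1 + c2 * u2 + c3 * u3 = 0) :
    Lc e J (u1 • i + u2 • j + u3 • l) (c1 • i + c2 • j + c3 • l) k (c1 ^ 2 + c2 ^ 2 + c3 ^ 2) := by
  have a : (u1 • i + u2 • j + u3 • l) * (c1 • i + c2 • j + c3 • l) =
      -((c1 • i + c2 • j + c3 • l) * (u1 • i + u2 • j + u3 • l)) -
        (2 * (c1 * u1 + c2 * u2 + c3 * u3)) • e := by
    simp only [mul_add, add_mul, smul_mul_assoc, mul_smul_comm, h.m11, h.m22, h.m33, h.m12, h.m21,
      h.m23, h.m32, h.m31, h.m13]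
    module
  rw [hc, mul_zero, zero_smul, sub_zero] at a
  refine ⟨h.ee, ?_, ?_, by rw [h.sq, sq, sq, sq, hu, one_smul], ?_, ?_, h.sq _ _ _, a, h.JJ, h.Je,
    ?_, ?_, h.kJ, h.ke, ?_, ?_, hk⟩ <;>
  simp only [mul_add, add_mul, smul_mul_assoc, mul_smul_comm, h.e1, h.e2, h.e3, h.f1, h.f2, h.f3,
    h.J1, h.J2, h.J3, h.k1, h.k2, h.k3]

namespace Lc
variable (h : Lc e J X C k n) {π : 𝔸} (hπ : π = (1 / 2 : ℝ) • (e - J * X))
include h hπ

theorem pp : π * π = π := by
  simp only [hπ, mul_sub, sub_mul, mul_assoc, smul_mul_assoc, mul_smul_comm, h.ee, mu' h.Je, h.eX,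
    h.Xe, mu' h.XJ, h.XX, mu' h.JJ, mul_neg, neg_mul, one_mul]
  module

theorem ep : e * π = π := by
  simp only [hπ, mul_sub, mul_assoc, mul_smul_comm, h.ee, mu' h.Je, h.eX]

theorem Jp : J * π = π * J := by
  simp only [hπ, mul_sub, sub_mul, mul_assoc, smul_mul_assoc, mul_smul_comm, h.Je, h.XJ]

theorem pc : π * (C * k) = C * k * π := by
  simp only [hπ, mul_sub, sub_mul, mul_assoc, smul_mul_assoc, mul_smul_comm, mu' h.eC, h.ke,
    mu' h.Ce, mu' h.XC, mu' h.kJ, h.kX, mu' h.CJ, mul_neg, neg_mul]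

theorem pq : π * (C * k * π) = C * k * π := by rw [← mul_assoc, h.pc hπ, mul_assoc, h.pp hπ]

theorem Jq : J * (C * k * π) = -(C * k * π * J) := by
  rw [mul_assoc _ π, ← h.Jp hπ]
  simp only [mul_assoc, mu' h.kJ, mu' h.CJ, mul_neg, neg_mul, neg_neg]

theorem qq : C * k * π * (C * k * π) = -(n • π) := by
  rw [mul_assoc _ π, h.pq hπ]
  simp only [mul_assoc, mu' h.kC, mu' h.CC, neg_mul, smul_mul_assoc]
  rw [← mul_assoc k, ← mul_assoc e, h.kk, h.ep hπ]

end Lc

end ring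

section lin
variable {κ : Type} [Fintype κ] [DecidableEq κ] {J p π C K T N : En κ}

theorem trn_add (S T : En κ) : trn (S + T) = trn S + trn T := map_add _ S T
theorem trn_sub (S T : En κ) : trn (S - T) = trn S - trn T := map_sub _ S T
theorem trn_neg (S : En κ) : trn (-S) = -trn S := map_neg _ S
theorem trn_smul (r : ℝ) (S : En κ) : trn (r • S) = r • trn S := map_smul _ r S

theorem skw_of {A : En κ} (h : trn A = -A) : Skw A := fun v w => by
  rw [← ContinuousLinearMap.adjoint_inner_right]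
  change ⟪v, trn A w⟫_ℝ = _
  rw [h, neg_apply, inner_neg_right]

theorem sym_of {A : En κ} (h : trn A = A) : Sym A := fun v w => by
  rw [← ContinuousLinearMap.adjoint_inner_right]
  change ⟪v, trn A w⟫_ℝ = _
  rw [h]

theorem tr_zero {c : ℝ} (hc : c ≠ 0) (h : K * T = -(T * K)) (h' : T * (K * K) = c • T) :
    trE T = 0 := by
  have e := trE_comm K (T * K)
  rw [← mul_assoc, h, neg_mul, mul_assoc, h', map_neg, neg_eq_iff_add_eq_zero, ← two_mul, map_smul,
    smul_eq_mul] at e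
  simpa [hc] using e

theorem rk_of (h : π * π = π) {n : ℕ} (ht : trE π = n) : rk π = n :=
  Std94.finrank_range_of_trace (fun w => app h w) ((trE_eq π).symm.trans ht)

/-- a four-dimensional space of operators without zero divisors acts transitively -/
theorem trans4 {X : Type} [AddCommGroup X] [Module ℝ X] [FiniteDimensional ℝ X]
    (hX : finrank ℝ X = rk π) (L : X →ₗ[ℝ] En κ) {v : Eu κ} (hL : ∀ x, π (L x v) = L x v)
    (hi : ∀ x, L x v = 0 → x = 0) {w : Eu κ} (hw : π w = w) : ∃ x, L x v = w := by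
  let f : X →ₗ[ℝ] π.range :=
    { toFun := fun x => ⟨L x v, L x v, hL x⟩
      map_add' := fun a b => Subtype.ext (by simp)
      map_smul' := fun a b => Subtype.ext (by simp) }
  obtain ⟨x, hx⟩ := (LinearMap.injective_iff_surjective_of_finrank_eq_finrank (f := f) hX).1
    ((injective_iff_map_eq_zero _).2 fun x hx => hi x (congrArg Subtype.val hx)) ⟨w, w, hw⟩
  exact ⟨x, congrArg Subtype.val hx⟩

theorem Qt.Cq (h : Qt J p π C) : C * π = C := by
  have := congrArg trn h.qC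
  rwa [trn_mul, Sym.trn h.hq.sym, Skw.trn h.sk, neg_mul, neg_inj] at this

/-- right quaternions -/
def rq (J C : En κ) (a b c d : ℝ) : En κ := a • 1 + b • J + c • C + d • (J * C)

theorem Qt.rq_sq (h : Qt J p π C) (a b c d : ℝ) :
    rq J C a (-b) (-c) (-d) * rq J C a b c d * π = (a ^ 2 + b ^ 2 + c ^ 2 + d ^ 2) • π := by
  have CJ : C * J = -(J * C) := by rw [h.anti, neg_neg]
  simp only [rq, mul_add, add_mul, mul_assoc, smul_mul_assoc, mul_smul_comm, one_mul, mu' CJ,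
    mu' h.hp.sq, h.Cq, h.sq, h.hq.idem, neg_mul, mul_neg, smul_neg, neg_neg]
  module

theorem Qt.q_rq (h : Qt J p π C) (a b c d : ℝ) : π * rq J C a b c d = rq J C a b c d * π := by
  simp only [rq, mul_add, add_mul, mul_assoc, smul_mul_assoc, mul_smul_comm, one_mul, mul_one,
    h.hq.comm.symm, h.Cq, h.qC, mu' h.hq.comm.symm]

theorem Qt.trans (h : Qt J p π C) (h4 : rk π = 4) {v w : Eu κ} (hv : π v = v) (h0 : v ≠ 0)
    (hw : π w = w) : ∃ a b c d, rq J C a b c d v = w := by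
  let L : (ℝ × ℝ × ℝ × ℝ) →ₗ[ℝ] En κ :=
    { toFun := fun x => rq J C x.1 x.2.1 x.2.2.1 x.2.2.2
      map_add' := fun _ _ => by simp only [rq, Prod.fst_add, Prod.snd_add]; module
      map_smul' := fun _ _ => by
        simp only [rq, Prod.smul_fst, Prod.smul_snd, RingHom.id_apply, smul_eq_mul]; module }
  have eL : ∀ x, L x = rq J C x.1 x.2.1 x.2.2.1 x.2.2.2 := fun _ => rfl
  obtain ⟨x, hx⟩ := trans4 (by simp [h4]) L (v := v) (fun x => by
    rw [eL, ← mul_apply_eq_comp, h.q_rq, mul_apply_eq_comp, hv]) (fun ⟨a, b, c, d⟩ hx => by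
      have e := app (h.rq_sq a b c d) v
      rw [mul_apply_eq_comp, mul_apply_eq_comp, hv, ← eL (a, b, c, d), hx, map_zero, smul_apply, hv,
        eq_comm, smul_eq_zero_iff_left h0] at e
      simp only [Prod.mk_eq_zero]
      refine ⟨?_, ?_, ?_, ?_⟩ <;> nlinarith [sq_nonneg a, sq_nonneg b, sq_nonneg c, sq_nonneg d]) hw
  exact ⟨_, _, _, _, hx⟩

/-- a skew operator commuting with left and right quaternions vanishes -/
theorem Qt.comm_zero (h : Qt J p π C) (h4 : rk π = 4) {S : Set (En κ)}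
    (hS : ∀ T ∈ S, J * T = T * J ∧ C * T = T * C ∧ N * T = T * N)
    (tr : ∀ v w, π v = v → v ≠ 0 → π w = w → ∃ r : ℝ, ∃ T ∈ S, w = r • v + T v)
    (hN : Skw N) (hJ : J * N = N * J) (hC : C * N = N * C) (hπ : π * N = N * π) : N * π = 0 := by
  refine ContinuousLinearMap.ext fun u => ?_
  have hv := h.hq.pp u
  rw [mul_apply_eq_comp, zero_apply]
  generalize π u = v at hv
  rcases eq_or_ne v 0 with rfl | h0
  · exact map_zero N
  obtain ⟨a, b, c, d, e⟩ := h.trans h4 hv h0 (w := N v) ((app hπ v).trans (congrArg N hv))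
  have e1 : N * π = rq J C a b c d * π := ContinuousLinearMap.ext fun w => by
    obtain ⟨r, T, hT, e2⟩ := tr v _ hv h0 (h.hq.pp w)
    obtain ⟨t1, t2, t3⟩ := hS T hT
    have : rq J C a b c d * T = T * rq J C a b c d := by
      simp only [rq, mul_add, add_mul, mul_assoc, smul_mul_assoc, mul_smul_comm, one_mul, mul_one,
        t1, t2, mu' t1]
    rw [mul_apply_eq_comp, mul_apply_eq_comp, e2, map_add, map_add, map_smul, map_smul, e,
      ← mul_apply_eq_comp N, t3, ← mul_apply_eq_comp _ T, this, mul_apply_eq_comp,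
      mul_apply_eq_comp, e]
  have CJ : C * J = -(J * C) := by rw [h.anti, neg_neg]
  have e2 : (4 : ℝ) • (N * π) = (4 * a) • π := by
    have : (4 : ℝ) • (N * π) = N * π - J * (N * π) * J - C * (N * π) * C -
        J * C * (N * π) * (J * C) := by
      simp only [mul_assoc, mu' hJ, mu' hC, h.hq.comm.symm, mu' h.hq.comm.symm, mu' CJ, h.qC, h.sq,
        mu' h.hp.sq, mul_neg, neg_mul, one_mul, neg_neg]
      module
    rw [this, e1]
    simp only [rq, mul_add, add_mul, mul_assoc, smul_mul_assoc, mul_smul_comm, one_mul, mu' CJ, CJ,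
      mu' h.hp.sq, h.Cq, h.qC, h.sq, h.hq.comm.symm, mu' h.hq.comm.symm, neg_mul, mul_neg,
      smul_neg, neg_neg]
    module
  have e3 : N v = a • v := smul_right_injective _ (four_ne_zero (α := ℝ)) (by
    simpa only [smul_apply, mul_apply_eq_comp, hv, mul_smul] using app e2 v)
  have e4 := Skew.self hN v
  rw [e3, real_inner_smul_left, mul_eq_zero, inner_self_eq_zero] at e4
  rw [e3, e4.resolve_right h0, zero_smul]

end lin

variable {E : Type} [NormedAddCommGroup E] [NormedSpace ℝ E] [FiniteDimensional ℝ E]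
  [MeasurableSpace E] [BorelSpace E]
  {HM : Type} [TopologicalSpace HM] {I : ModelWithCorners ℝ E HM} [I.Boundaryless]
  {M : Type} [TopologicalSpace M] [ChartedSpace HM M] [IsManifold I ∞ M]
  [MeasurableSpace M] [BorelSpace M] [SecondCountableTopology M] {ι : Type} [Fintype ι]
  {lam : Type} [Fintype lam] {m : Md M ι lam} {B : Base M ι lam} {x : M} {k : Cut M lam}
  {F : Fr I M ι} {T : En (Fin m.N)} {ξ : m.A}

theorem c2_comm (hT : ∀ a, T * m.ρ a x = m.ρ a x * T) (w : Eu (ι × ι)) :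
    T * m.c2 x w = m.c2 x w * T := by
  simp only [Md.c2, Finset.mul_sum, Finset.sum_mul, mul_smul_comm, smul_mul_assoc, mul_assoc, hT,
    mu' (hT _)]

theorem pi_comm (hp : T * m.p x = m.p x * T) (hJ : T * m.J = m.J * T)
    (hT : ∀ a, T * m.ρ a x = m.ρ a x * T) : T * k.pi B F m x = k.pi B F m x * T := by
  simp only [Cut.pi, mul_sub, sub_mul, mul_smul_comm, smul_mul_assoc, mul_assoc, pp_comm hp hT,
    mu' hJ, c2_comm hT]

theorem q0_comm (hp : T * m.p x = m.p x * T) (hJ : T * m.J = m.J * T)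
    (hT : ∀ a, T * m.ρ a x = m.ρ a x * T) (hj : ∀ s, T * m.j x s = m.j x s * T) :
    T * k.q0 B F m x = k.q0 B F m x * T := by
  refine ((Commute.mul_right (pi_comm hp hJ hT) ?_).mul_right (pi_comm hp hJ hT)).eq
  refine Commute.list_sum_right _ _ fun y hy => ?_
  obtain ⟨t, -, rfl⟩ := List.mem_map.1 hy
  exact Commute.mul_right (c2_comm hT _) (hj _)

variable (hB : B.OK I) (H : m.OK I B)
include H

theorem g_pi (h : ξ ∈ m.gS x) : opL ξ * k.pi B F m x = k.pi B F m x * opL ξ :=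
  pi_comm (by rw [g_p' H h, g_p h]) (g_J h).symm fun a => (g_ρ h a).symm

theorem g_qu (h : ξ ∈ m.gS x) : opL ξ * k.qu B F m x = k.qu B F m x * opL ξ := by
  rw [Cut.qu, mul_smul_comm, smul_mul_assoc, q0_comm (by rw [g_p' H h, g_p h]) (g_J h).symm
    (fun a => (g_ρ h a).symm) fun s => (g_j h s).symm]

theorem J_pi : m.J * k.pi B F m x = k.pi B F m x * m.J := pi_comm (H.Jp x) rfl fun a => H.Jρ a x

include hB

theorem cp_pp (x : M) : CP m.J (m.pp B x) :=
  ⟨⟨H.Jsq, H.Jsk⟩, pp_sym hB H x, pp_pp hB H x, J_pp H x⟩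

theorem tr_pp (x : M) : trE (m.pp B x) = 8 := by
  obtain ⟨U, h⟩ := b_on hB x
  have D := h.cl4 (H.cl x)
  have : trE (m.om B x) = 0 := tr_zero (K := rr U (fun a => m.ρ a x) 0) (c := -1) (by simp)
    (by simp only [rr, Finset.sum_mul, Finset.mul_sum, smul_mul_assoc, mul_smul_comm, om_rho hB H,
      smul_neg, Finset.sum_neg_distrib, neg_neg])
    (by rw [D.sq, mul_neg, om_p H, neg_smul, one_smul])
  rw [Md.pp, map_smul, map_sub, this, trE_eq, H.prk]; norm_num

theorem c2_skw (w : ι → ι → ℝ) : trn (m.c2 x (sdT B x w)) = -m.c2 x (sdT B x w) := by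
  simp only [Cut54.c2_alt hB H, map_sum, map_smul, Skw.trn (rp_skw hB H _), smul_neg,
    Finset.sum_neg_distrib]

theorem exists_lc (ho : k.om B F x ≠ 0) : ∃ X C K n, Lc (m.pp B x) m.J X C K n ∧ trn X = -X ∧
    trn K = K ∧ k.pi B F m x = (1 / 2 : ℝ) • (m.pp B x - m.J * X) ∧
    k.q0 B F m x = (1 / 2 : ℝ) • (C * K * k.pi B F m x) := by
  obtain ⟨U, h⟩ := b_on hB x
  obtain ⟨t, h1, h2, h3⟩ := line_eq hB x
  have Q := Cut54.qt_md h H t
  have hc := Cut54.c2_sdT h H
  have hn := Cut54.norm_sdT h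
  have hs := c2_skw hB H (x := x)
  generalize i1 (rr U fun a => m.ρ a x) = i at Q hc
  generalize i2 (rr U fun a => m.ρ a x) = j at Q hc
  generalize i3 (rr U fun a => m.ρ a x) = l at Q hc
  obtain ⟨a1, a2, a3, b1, b2, b3, hT⟩ : ∃ a1 a2 a3 b1 b2 b3 : ℝ,
      (k.e.map fun t => m.c2 x (B.dd F t.2.1 t.2.2 x) * m.j x (t.1 x)).sum =
      (a1 • i + a2 • j + a3 • l) * m.j x t + (b1 • i + b2 • j + b3 • l) * (m.J * m.j x t) := by
    induction k.e with
    | nil => exact ⟨0, 0, 0, 0, 0, 0, by simp⟩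
    | cons s L ih =>
      obtain ⟨a1, a2, a3, b1, b2, b3, ih⟩ := ih
      rw [List.map_cons, List.sum_cons, ih, ← H.jl x (s.1 x), h3, map_add, map_smul, map_smul, H.jil,
        show B.dd F s.2.1 s.2.2 x = sdT B x fun a b => F.D a s.2.1 x * F.D b s.2.2 x from rfl, hc]
      generalize v1 _ _ = w1
      generalize v2 _ _ = w2
      generalize v3 _ _ = w3
      generalize ⟪t, s.1 x⟫_ℝ = α
      generalize ⟪B.il t, s.1 x⟫_ℝ = β
      refine ⟨α * w1 + a1, α * w2 + a2, α * w3 + a3, β * w1 + b1, β * w2 + b2, β * w3 + b3, ?_⟩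
      simp only [mul_add, add_mul, smul_mul_assoc, mul_smul_comm]
      module
  have hp : 0 < 2 * ‖k.om B F x‖ := mul_pos two_pos (norm_pos_iff.2 ho)
  rw [Cut.q0, hT, Cut.pi]
  rw [Cut54.om_eq] at hp ⊢
  generalize (fun a b => (k.w.map fun t => t.1 x * (F.D a t.2.1 x * F.D b t.2.2 x)).sum) = w at *
  specialize hn w
  specialize hs w
  rw [hc] at hs ⊢
  generalize 2 * ‖sdT B x w‖ = n at *
  have hu : n⁻¹ * v1 1 (cW U w) * (n⁻¹ * v1 1 (cW U w)) + n⁻¹ * v2 1 (cW U w) * (n⁻¹ * v2 1 (cW U w)) +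
      n⁻¹ * v3 1 (cW U w) * (n⁻¹ * v3 1 (cW U w)) = 1 := by field_simp; linarith
  obtain ⟨c1, c2, c3, h4, h5⟩ := key2 Q hu a1 a2 a3 b1 b2 b3
  refine ⟨_, _, _, _, lc_of Q (by rw [H.jsq, h2, h1, one_pow, one_smul, pp_p H]) hu h4, ?_,
    Sym.trn (H.jsym x t), ?_, ?_⟩
  · simp only [mul_smul, ← smul_add, map_smul, hs, smul_neg]
  · simp only [mul_smul, ← smul_add, mul_smul_comm]
  · simp only [mul_smul, ← smul_add, mul_smul_comm] at h5
    simp only [mul_smul_comm, smul_mul_assoc, h5]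

variable (ho : k.om B F x ≠ 0)
include ho

theorem sub_pi : Sub m.J (m.pp B x) (k.pi B F m x) := by
  obtain ⟨X, C, K, n, h, hX, -, e, -⟩ := exists_lc hB H ho
  refine ⟨cp_pp hB H x, ⟨⟨H.Jsq, H.Jsk⟩, sym_of ?_, h.pp e, J_pi H⟩, h.ep e⟩
  rw [e, trn_smul, trn_sub, trn_mul, hX, Skw.trn H.Jsk, Sym.trn (pp_sym hB H x), neg_mul_neg, h.XJ]

theorem tr_pi : trE (k.pi B F m x) = 4 := by
  obtain ⟨X, C, K, n, h, -, -, e, -⟩ := exists_lc hB H ho
  have : trE (m.J * X) = 0 := tr_zero (K := K) one_ne_zero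
    (by rw [mu' h.kJ, neg_mul, mul_assoc, mul_assoc, h.kX])
    (by rw [one_smul, mul_assoc, ← h.Xe, mul_assoc, h.kk])
  rw [e, map_smul, map_sub, this, tr_pp hB H]; norm_num

theorem rk_pi : rk (k.pi B F m x) = 4 :=
  rk_of (sub_pi hB H ho).hq.idem (by rw [tr_pi hB H ho]; norm_num)

theorem p_pi : m.p x * k.pi B F m x = k.pi B F m x := by
  rw [← (sub_pi hB H ho).pq, ← mul_assoc, p_pp H]

/-- `U = ℝ v ⊕ g v` -/
theorem exists_g {v w : m.V} (hv : k.pi B F m x v = v) (h0 : v ≠ 0) (hw : k.pi B F m x w = w) :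
    ∃ r : ℝ, ∃ ξ ∈ m.gS x, w = r • v + opL ξ v := by
  let L : (ℝ × m.gS x) →ₗ[ℝ] En (Fin m.N) := (LinearMap.fst ℝ _ _).smulRight (m.p x) +
    (opL : CL m.A _).toLinearMap ∘ₗ (m.gS x).subtype ∘ₗ LinearMap.snd ℝ _ _
  have eL : ∀ y, L y = y.1 • m.p x + opL y.2.1 := fun _ => rfl
  have pv : m.p x v = v := by rw [← hv, ← mul_apply_eq_comp, p_pi hB H ho]
  obtain ⟨y, hy⟩ := trans4 (by simp [rk_pi hB H ho, Std94.finrank_g hB (Std94.pmx H x)]) L (v := v)
    (fun y => by
      rw [eL, add_apply, smul_apply, pv, map_add, map_smul, hv, ← mul_apply_eq_comp,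
        ← g_pi H y.2.2, mul_apply_eq_comp, hv]) (fun ⟨r, ξ, hξ⟩ hy => by
      have e := app (Std94.comm_norm hB (Std94.pmx H x) r hξ).1 v
      rw [mul_apply_eq_comp, ← eL (r, ⟨ξ, hξ⟩), hy, map_zero, smul_apply, pv, eq_comm,
        smul_eq_zero_iff_left h0] at e
      refine Prod.ext (show r = 0 by nlinarith [sq_nonneg r, sq_nonneg ‖ξ‖])
        (Subtype.ext (norm_eq_zero.1 (show ‖ξ‖ = 0 by nlinarith [sq_nonneg r, sq_nonneg ‖ξ‖])))) hw
  exact ⟨y.1, _, y.2.2, by rw [← hy, eL, add_apply, smul_apply, pv]⟩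

variable (hq : k.q0 B F m x ≠ 0)
include hq

/-- **The quaternionic structure of `U`** -/
theorem qt_qu : Qt m.J (m.pp B x) (k.pi B F m x) (k.qu B F m x) := by
  have S := sub_pi hB H ho
  obtain ⟨X, C, K, n, h, hX, hK, e, e'⟩ := exists_lc hB H ho
  have sk : trn (k.q0 B F m x) = -k.q0 B F m x := by
    have : trn (k.e.map fun t => m.c2 x (B.dd F t.2.1 t.2.2 x) * m.j x (t.1 x)).sum =
        -(k.e.map fun t => m.c2 x (B.dd F t.2.1 t.2.2 x) * m.j x (t.1 x)).sum := by
      induction k.e with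
      | nil => simp
      | cons s L ih =>
        rw [List.map_cons, List.sum_cons, trn_add, ih, trn_mul, Sym.trn (H.jsym _ _), neg_add,
          ← c2_comm fun a => H.jρ a x _, show B.dd F s.2.1 s.2.2 x = sdT B x fun a b =>
            F.D a s.2.1 x * F.D b s.2.2 x from rfl, c2_skw hB H, mul_neg]
    rw [Cut.q0, trn_mul, trn_mul, this, Sym.trn S.hq.sym, neg_mul, mul_neg, mul_assoc]
  have qq : k.q0 B F m x * k.q0 B F m x = -((n / 4) • k.pi B F m x) := by
    rw [e', smul_mul_assoc, mul_smul_comm, h.qq e]; module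
  have nn : ‖hsL (k.q0 B F m x)‖ ^ 2 = n := by
    rw [← real_inner_self_eq_norm_sq, inner_trn, sk, neg_mul, qq, neg_neg, map_smul, tr_pi hB H ho]
    simp
  have n0 : ‖hsL (k.q0 B F m x)‖ ≠ 0 := norm_ne_zero_iff.2 fun h0 => hq (by
    rw [← opL_hsL (k.q0 B F m x), h0, map_zero])
  refine ⟨S, ?_, ?_, skw_of ?_, ?_⟩ <;> rw [Cut.qu]
  · rw [e', mul_smul_comm, mul_smul_comm, h.Jq e, smul_mul_assoc, smul_mul_assoc, smul_neg, smul_neg]
  · rw [smul_mul_assoc, mul_smul_comm, qq, ← nn]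
    match_scalars
    field_simp; norm_num
  · rw [trn_smul, sk, smul_neg]
  · rw [e', mul_smul_comm, mul_smul_comm, h.pq e]

/-- a skew operator commuting with `J, π, qu, g` vanishes on `U` -/
theorem zero_on_U (hN : Skw T) (hJ : m.J * T = T * m.J) (hπ : k.pi B F m x * T = T * k.pi B F m x)
    (hC : k.qu B F m x * T = T * k.qu B F m x) (hg : ∀ ξ ∈ m.gS x, T * opL ξ = opL ξ * T) :
    T * k.pi B F m x = 0 :=
  (qt_qu hB H ho hq).comm_zero (rk_pi hB H ho) (S := opL '' m.gS x)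
    (by rintro _ ⟨ξ, h, rfl⟩; exact ⟨g_J h, (g_qu H h).symm, hg ξ h⟩)
    (fun _ _ hv h0 hw =>
      let ⟨r, ξ, h, e⟩ := exists_g hB H ho hv h0 hw
      ⟨r, _, ⟨ξ, h, rfl⟩, e⟩) hN hJ hC hπ

end Crest.Agent.X212.Hol14
end
end

-- ▼ part X212/Hol14/Alg

/-!
# Row 212, Toeplitz cut: the symbol takes values in `Sp(1)`; index zero
-/

set_option autoImplicit false
set_option linter.unusedSectionVars false
noncomputable section
open scoped Manifold ContDiff Topology InnerProductSpace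
open Set Function Module

namespace Crest.Agent.X212.Hol14
open An Wz78
open Fred93 (Fr)
open Cut54 (mu')
open Csm97 (pa pa1)

section lin
variable {κ : Type} [Fintype κ] [DecidableEq κ] {J A p p' q q' a : En κ}

theorem one_comm {S T : En κ} (h : S * T = 1) : T * S = 1 :=
  ContinuousLinearMap.coe_injective ((mul_eq_one_comm (a := (S : Eu κ →ₗ[ℝ] Eu κ))
    (b := (T : Eu κ →ₗ[ℝ] Eu κ))).1 (congrArg ContinuousLinearMap.toLinearMap h))

theorem trn_one : trn (1 : En κ) = 1 := ContinuousLinearMap.adjoint_id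

theorem pa_add (hp : a * p = p * a) (hq : a * q = q * a) :
    pa (A + a) p p' q q' = pa A p p' q q' + a := by
  have : pa1 (A + a) p p' = pa1 A p p' + a := by
    simp only [pa1, add_mul, mul_add, hp]; abel
  simp only [pa, this, add_mul, mul_add, mul_sub, hq]; module

/-- first jets of a projector `p` and of a quaternionic structure `q` on its range -/
structure Jet (J p p' q q' : En κ) : Prop where
  ps : trn p = p
  ps' : trn p' = p'
  pp : p * p = p
  pp' : p' * p + p * p' = p'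
  Jp : J * p = p * J
  Jp' : J * p' = p' * J
  qs : trn q = -q
  qs' : trn q' = -q'
  qq : q * q = -p
  qq' : q' * q + q * q' = -p'
  Jq : J * q = -(q * J)
  Jq' : J * q' = -(q' * J)
  pq : p * q = q
  pq' : p' * q + p * q' = q'
  qp : q * p = q
  qp' : q' * p + q * p' = q'

namespace Jet
variable (h : Jet J p p' q q')
include h

theorem par1 (A : En κ) : p' + (pa1 A p p' * p - p * pa1 A p p') = 0 := by
  have e : p * (p' * p) = 0 := by
    have := congrArg (p * ·) h.pp'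
    simpa only [mul_add, mu' h.pp, add_eq_right] using this
  nth_rewrite 1 [← h.pp']
  simp only [pa1, add_mul, mul_add, mul_sub, sub_mul, mul_assoc, smul_mul_assoc, mul_smul_comm,
    one_mul, h.pp, mu' h.pp, e]
  module

theorem skw1 (hA : trn A = -A) : trn (pa1 A p p') = -pa1 A p p' := by
  simp only [pa1, trn_add, trn_mul, trn_sub, trn_smul, hA, h.ps, h.ps', mul_add, mul_sub, sub_mul,
    mul_assoc, smul_mul_assoc, one_mul, mu' h.pp, neg_mul, mul_neg, eq_sub_of_add_eq h.pp']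
  module

theorem J1 (hA : J * A = A * J) : J * pa1 A p p' = pa1 A p p' * J := by
  simp only [pa1, add_mul, mul_add, mul_sub, sub_mul, mul_assoc, smul_mul_assoc, mul_smul_comm,
    one_mul, mu' h.Jp, h.Jp, h.Jp', hA, mu' hA]

theorem key {B : En κ} (e : p' + (B * p - p * B) = 0) :
    p * (q' + (B * q - q * B)) = q' + (B * q - q * B) ∧
    (q' + (B * q - q * B)) * p = q' + (B * q - q * B) ∧
    (q' + (B * q - q * B)) * q = -(q * (q' + (B * q - q * B))) := by
  have e' : p' = p * B - B * p := by rw [← neg_sub, eq_neg_iff_add_eq_zero, e]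
  refine ⟨?_, ?_, ?_⟩
  · simp only [mul_add, mul_sub, eq_sub_of_add_eq' h.pq', mu' h.pq, e', sub_mul, mul_assoc, h.pq]
    abel
  · simp only [add_mul, mul_sub, eq_sub_of_add_eq h.qp', mu' h.qp, e', sub_mul, mul_assoc, h.qp]
    abel
  · simp only [add_mul, mul_add, mul_sub, eq_sub_of_add_eq h.qq', mu' h.qq, e', sub_mul, mul_assoc,
      h.qq, mul_neg, neg_mul]
    abel

theorem par_p (A : En κ) : p' + (pa A p p' q q' * p - p * pa A p p' q q') = 0 := by
  obtain ⟨h1, h2, -⟩ := h.key (h.par1 A)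
  simp only [pa, sub_mul, mul_sub, smul_mul_assoc, mul_smul_comm, mul_assoc, h2, mu' h.pq]
  rw [← h.par1 A]; abel

theorem par_q (A : En κ) : q' + (pa A p p' q q' * q - q * pa A p p' q q') = 0 := by
  obtain ⟨h1, -, h3⟩ := h.key (h.par1 A)
  rw [pa]
  generalize pa1 A p p' = B at *
  have e : q' = (q' + (B * q - q * B)) - (B * q - q * B) := by abel
  generalize q' + (B * q - q * B) = D at *
  simp only [e, sub_mul, mul_sub, smul_mul_assoc, mul_smul_comm, mul_assoc, h3, mul_neg, mu' h.qq,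
    neg_mul, h1]
  module

theorem skw (hA : trn A = -A) : trn (pa A p p' q q') = -pa A p p' q q' := by
  obtain ⟨-, -, h3⟩ := h.key (h.par1 A)
  have := h.skw1 hA
  rw [pa]
  generalize pa1 A p p' = B at *
  have e : trn (q' + (B * q - q * B)) = -(q' + (B * q - q * B)) := by
    simp only [trn_add, trn_sub, trn_mul, this, h.qs, h.qs', neg_mul_neg]; abel
  rw [trn_sub, trn_smul, trn_mul, e, this, h.qs, neg_mul_neg, h3]; module

theorem J2 (hA : J * A = A * J) : J * pa A p p' q q' = pa A p p' q q' * J := by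
  have := h.J1 hA
  simp only [pa, add_mul, mul_add, mul_sub, sub_mul, mul_assoc, smul_mul_assoc, mul_smul_comm,
    mu' h.Jq, h.Jq, h.Jq', this, mu' this, neg_mul, mul_neg, neg_neg]

end Jet

theorem hasDerivAt_trn {P : ℝ → En κ} {P' : En κ} {s : ℝ} (h : HasDerivAt P P' s) :
    HasDerivAt (fun s => trn (P s)) (trn P') s :=
  (Eqv71.trnL : CL (En κ) (En κ)).hasFDerivAt.comp_hasDerivAt s h

theorem jet_of {e p q : ℝ → En κ} {s : ℝ} (h : ∀ s, Qt J (e s) (p s) (q s))
    (hp : HasDerivAt p p' s) (hq : HasDerivAt q q' s) : Jet J (p s) p' (q s) q' := by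
  have u : ∀ {f g : ℝ → En κ} {f' g' : En κ}, HasDerivAt f f' s → HasDerivAt g g' s →
      (∀ t, f t = g t) → f' = g' := fun hf hg e => hf.unique (funext e ▸ hg)
  exact ⟨Sym.trn (h s).hq.sym, u (hasDerivAt_trn hp) hp fun t => Sym.trn (h t).hq.sym,
    (h s).hq.idem, u (hp.mul hp) hp fun t => (h t).hq.idem,
    (h s).hq.comm, u (hp.const_mul J) (hp.mul_const J) fun t => (h t).hq.comm,
    Skw.trn (h s).sk, u (hasDerivAt_trn hq) hq.neg fun t => Skw.trn (h t).sk,
    (h s).sq, u (hq.mul hq) hp.neg fun t => (h t).sq,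
    (h s).anti, u (hq.const_mul J) (hq.mul_const J).neg fun t => (h t).anti,
    (h s).qC, u (hp.mul hq) hq fun t => (h t).qC, (h s).Cq, u (hq.mul hp) hq fun t => (h t).Cq⟩

/-- orthogonal transport -/
structure Tr (A P : ℝ → En κ) : Prop where
  sk : ∀ s, trn (A s) = -A s
  h0 : P 0 = 1
  d : ∀ s, HasDerivAt P (-(A s * P s)) s

namespace Tr
variable {A P T T' : ℝ → En κ} (h : Tr A P)
include h

theorem der {s : ℝ} {T' : En κ} (hT : HasDerivAt T T' s) :
    HasDerivAt (fun s => trn (P s) * T s * P s)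
      (trn (P s) * (T' + (A s * T s - T s * A s)) * P s) s := by
  refine (((hasDerivAt_trn (h.d s)).mul hT).mul (h.d s)).congr_deriv ?_
  simp only [trn_neg, trn_mul, h.sk, Pi.mul_apply]
  noncomm_ring

theorem conj (hT : ∀ s, HasDerivAt T (T' s) s) (e : ∀ s, T' s + (A s * T s - T s * A s) = 0)
    (s : ℝ) : trn (P s) * T s * P s = T 0 := by
  rw [is_const_of_deriv_eq_zero (f := fun s => trn (P s) * T s * P s)
    (fun s => (h.der (hT s)).differentiableAt)
    (fun s => by rw [(h.der (hT s)).deriv, e, mul_zero, zero_mul]) s 0, h.h0, trn_one, one_mul,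
    mul_one]

theorem l (s : ℝ) : trn (P s) * P s = 1 := by
  simpa using h.conj (T := fun _ => 1) (fun s => hasDerivAt_const s _) (by simp) s

theorem r (s : ℝ) : P s * trn (P s) = 1 := one_comm (h.l s)

/-- parallel endomorphisms are intertwined -/
theorem int (hT : ∀ s, HasDerivAt T (T' s) s) (e : ∀ s, T' s + (A s * T s - T s * A s) = 0)
    (s : ℝ) : T s * P s = P s * T 0 := by
  rw [← h.conj hT e s, ← mul_assoc, ← mul_assoc, h.r, one_mul]

theorem int' (hT : ∀ s, HasDerivAt T (T' s) s) (e : ∀ s, T' s + (A s * T s - T s * A s) = 0)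
    (s : ℝ) : T 0 * trn (P s) = trn (P s) * T s := by
  rw [← h.conj hT e s, mul_assoc, h.r, mul_one]

end Tr

theorem sp_of {e C : En κ} (h : Qt J e p C) {g : UnitAddCircle → En κ} {G : Sy κ}
    (hG : ∀ θ, G θ = g θ * p + (e - p)) (l : ∀ θ, trn (g θ) * g θ = 1)
    (hJ : ∀ θ, J * g θ = g θ * J) (hp : ∀ θ, p * g θ = g θ * p) (hC : ∀ θ, C * g θ = g θ * C) :
    Sp J e p C G := by
  have eC : e * C = C := by rw [← h.qC, ← mul_assoc, h.pq]
  have Ce : C * e = C := by rw [← h.Cq, mul_assoc, h.qp]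
  have r : ∀ θ, g θ * trn (g θ) = 1 := fun θ => one_comm (l θ)
  have hp' : ∀ θ, p * trn (g θ) = trn (g θ) * p := fun θ => by
    have := congrArg trn (hp θ)
    rw [trn_mul, trn_mul, Sym.trn h.hq.sym] at this
    exact this.symm
  have eg : ∀ θ, e * (g θ * p) = g θ * p := fun θ => by rw [← hp, ← mul_assoc, h.pq]
  have eg' : ∀ θ, e * (trn (g θ) * p) = trn (g θ) * p := fun θ => by rw [← hp', ← mul_assoc, h.pq]
  refine ⟨⟨fun θ => ⟨?_, ?_⟩, fun θ => ?_, fun θ => ?_⟩, fun θ => ?_, fun θ => ?_, fun θ => ?_⟩ <;>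
  simp only [hG, trn_add, trn_sub, trn_mul, Sym.trn h.hq.sym, Sym.trn h.hp.sym, mul_add, add_mul,
    mul_sub, sub_mul, mul_assoc, mu' (hJ _), h.hp.comm, h.hq.comm, h.pq, h.qp, h.hp.idem, h.hq.idem,
    mu' (hp _), mu' (hp' _), mu' (l _), mu' (r _), eg, eg', hp', mu' (hC _), h.qC, h.Cq, eC, Ce,
    one_mul, sub_self, add_zero] <;>
  abel

end lin

variable {E : Type} [NormedAddCommGroup E] [NormedSpace ℝ E] [FiniteDimensional ℝ E]
  [MeasurableSpace E] [BorelSpace E]
  {HM : Type} [TopologicalSpace HM] {I : ModelWithCorners ℝ E HM} [I.Boundaryless]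
  {M : Type} [TopologicalSpace M] [ChartedSpace HM M] [IsManifold I ∞ M]
  [MeasurableSpace M] [BorelSpace M] [SecondCountableTopology M] {ι : Type} [Fintype ι]
  {lam : Type} [Fintype lam] {m : Md M ι lam} {B : Base M ι lam} {k : Cut M lam}
  {F : Fr I M ι} {G : Geo I M ι lam} {W : m.Cn} {α : M → Fm ι m.A}

variable (k) in
/-- continuous unitary connections along the paths -/
structure Cn0 (W : m.Cn) : Prop where
  ct : ∀ a, ContinuousOn (W a) k.supp
  sk : ∀ a, ∀ x ∈ k.supp, Skw (W a x)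
  J : ∀ a, ∀ x ∈ k.supp, m.J * W a x = W a x * m.J

theorem cn0_of (C : m.IsConn B G W) : Cn0 k W :=
  ⟨fun a x _ => (C.cc.sm a x).continuousAt.continuousWithinAt, fun a x _ => C.sk a x, fun a x _ => C.J a x⟩

theorem Cn0.addC (h : Cn0 k W) (hα : ContinuousOn α k.supp)
    (hg : ∀ x ∈ k.supp, ∀ a, α x a ∈ m.gS x) : Cn0 k (m.addC W α) :=
  ⟨fun a => (h.ct a).add ((opL ∘L PiLp.proj 2 (fun _ : ι => m.A) a).continuous.comp_continuousOn hα),
    fun a x hx => skw_of (by
      rw [Md.addC, trn_add, Skw.trn (h.sk a x hx), Skw.trn (g_skw (hg x hx a)), neg_add]),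
    fun a x hx => by rw [Md.addC, mul_add, add_mul, h.J a x hx, g_J (hg x hx a)]⟩

theorem A2_addC (H : m.OK I B) {θ : UnitAddCircle} {s : ℝ} (hg : ∀ a, α (k.γ θ s) a ∈ m.gS (k.γ θ s)) :
    k.A2 B F m (m.addC W α) θ s =
      k.A2 B F m W θ s + ∑ a, k.vel F θ s a • opL (α (k.γ θ s) a) := by
  rw [Csm97.A2_eq, Csm97.A2_eq, ← pa_add]
  · simp only [Md.addC, smul_add, Finset.sum_add_distrib]
  · simp only [Finset.sum_mul, Finset.mul_sum, smul_mul_assoc, mul_smul_comm, g_pi H (hg _)]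
  · simp only [Finset.sum_mul, Finset.mul_sum, smul_mul_assoc, mul_smul_comm, g_qu H (hg _)]

variable (k B F) in
/-- the holonomy -/
def hol (W : m.Cn) (θ : UnitAddCircle) : En (Fin m.N) :=
  trn (trp (k.A2 B F m W 0) 1) * trp (k.A2 B F m W θ) 1

theorem sym_eq (θ : UnitAddCircle) : k.sym B F m W θ =
    hol B k F W θ * k.pi B F m k.x0 + (m.pp B k.x0 - k.pi B F m k.x0) := rfl

section main
variable (hB : B.OK I) (H : m.OK I B) (hk : k.OK B F)
include hB H hk

theorem qt_γ (θ : UnitAddCircle) (s : ℝ) :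
    Qt m.J (m.pp B (k.γ θ s)) (k.pi B F m (k.γ θ s)) (k.qu B F m (k.γ θ s)) :=
  qt_qu hB H (hk.om θ s) (hk.q0 m H θ s)

theorem qt_x0 : Qt m.J (m.pp B k.x0) (k.pi B F m k.x0) (k.qu B F m k.x0) := qt_γ hB H hk 0 0

theorem jet_γ (θ : UnitAddCircle) (s : ℝ) : Jet m.J (k.pi B F m (k.γ θ s))
    (deriv (fun s => k.pi B F m (k.γ θ s)) s) (k.qu B F m (k.γ θ s))
    (deriv (fun s => k.qu B F m (k.γ θ s)) s) :=
  jet_of (qt_γ hB H hk θ) (Csm97.pi_diff hB H hk θ s).hasDerivAt
    (Csm97.qu_diff hB H hk θ s).hasDerivAt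

variable (h : Cn0 k W)
include h

theorem tr_A2 (θ : UnitAddCircle) : Tr (k.A2 B F m W θ) (trp (k.A2 B F m W θ)) :=
  ⟨fun s => by
    rw [Csm97.A2_eq]
    refine (jet_γ hB H hk θ s).skw ?_
    have : ∀ a, trn (W a (k.γ θ s)) = -W a (k.γ θ s) := fun a => Skw.trn (h.sk a _ ⟨(θ, s), rfl⟩)
    simp only [map_sum, map_smul, this, smul_neg, Finset.sum_neg_distrib],
    (Csm97.trp_A2 hB H hk h.ct θ).1, (Csm97.trp_A2 hB H hk h.ct θ).2⟩

theorem J_A2 (θ : UnitAddCircle) (s : ℝ) : m.J * k.A2 B F m W θ s = k.A2 B F m W θ s * m.J := by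
  rw [Csm97.A2_eq]
  refine (jet_γ hB H hk θ s).J2 ?_
  have : ∀ a, m.J * W a (k.γ θ s) = W a (k.γ θ s) * m.J := fun a => h.J a _ ⟨(θ, s), rfl⟩
  simp only [Finset.sum_mul, Finset.mul_sum, smul_mul_assoc, mul_smul_comm, this]

theorem J_trp (θ : UnitAddCircle) (s : ℝ) :
    m.J * trp (k.A2 B F m W θ) s = trp (k.A2 B F m W θ) s * m.J :=
  (tr_A2 hB H hk h θ).int (T := fun _ => m.J) (fun s => hasDerivAt_const s _)
    (fun s => by rw [J_A2 hB H hk h, sub_self, add_zero]) s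

theorem pi_trp (θ : UnitAddCircle) (s : ℝ) : k.pi B F m (k.γ θ s) * trp (k.A2 B F m W θ) s =
    trp (k.A2 B F m W θ) s * k.pi B F m k.x0 := by
  rw [← hk.h0 θ 0 le_rfl]
  exact (tr_A2 hB H hk h θ).int (fun s => (Csm97.pi_diff hB H hk θ s).hasDerivAt)
    (fun s => by rw [Csm97.A2_eq]; exact (jet_γ hB H hk θ s).par_p _) s

theorem qu_trp (θ : UnitAddCircle) (s : ℝ) : k.qu B F m (k.γ θ s) * trp (k.A2 B F m W θ) s =
    trp (k.A2 B F m W θ) s * k.qu B F m k.x0 := by
  rw [← hk.h0 θ 0 le_rfl]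
  exact (tr_A2 hB H hk h θ).int (fun s => (Csm97.qu_diff hB H hk θ s).hasDerivAt)
    (fun s => by rw [Csm97.A2_eq]; exact (jet_γ hB H hk θ s).par_q _) s

theorem hol_comm {T T₁ : En (Fin m.N)}
    (e : ∀ θ, T₁ * trp (k.A2 B F m W θ) 1 = trp (k.A2 B F m W θ) 1 * T) (θ : UnitAddCircle) :
    T * hol B k F W θ = hol B k F W θ * T := by
  rw [hol, mul_assoc, ← e, ← mul_assoc, ← mul_assoc]
  congr 1
  rw [← mul_one (_ * T₁), ← (tr_A2 hB H hk h 0).r 1, ← mul_assoc, mul_assoc _ T₁, e, ← mul_assoc,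
    (tr_A2 hB H hk h 0).l, one_mul]

theorem hol_l (θ : UnitAddCircle) : trn (hol B k F W θ) * hol B k F W θ = 1 := by
  rw [hol, trn_mul, Eqv71.trn_trn, mul_assoc, mu' ((tr_A2 hB H hk h 0).r 1), one_mul,
    (tr_A2 hB H hk h θ).l]

theorem J_hol (θ : UnitAddCircle) : m.J * hol B k F W θ = hol B k F W θ * m.J :=
  hol_comm hB H hk h (fun θ => J_trp hB H hk h θ 1) θ

theorem pi_hol (θ : UnitAddCircle) :
    k.pi B F m k.x0 * hol B k F W θ = hol B k F W θ * k.pi B F m k.x0 :=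
  hol_comm hB H hk h (fun θ => hk.h1 θ 1 le_rfl ▸ pi_trp hB H hk h θ 1) θ

theorem qu_hol (θ : UnitAddCircle) :
    k.qu B F m k.x0 * hol B k F W θ = hol B k F W θ * k.qu B F m k.x0 :=
  hol_comm hB H hk h (fun θ => hk.h1 θ 1 le_rfl ▸ qu_trp hB H hk h θ 1) θ

theorem cm_sym (θ : UnitAddCircle) : cm (k.sym B F m W) θ = k.sym B F m W θ :=
  cm_apply (Csm97.sym_cont hB H hk h.ct) θ

/-- **The symbol takes values in `Sp(1)`** -/
theorem sp_sym : Sp m.J (m.pp B k.x0) (k.pi B F m k.x0) (k.qu B F m k.x0) (cm (k.sym B F m W)) :=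
  sp_of (qt_x0 hB H hk) (cm_sym hB H hk h) (hol_l hB H hk h) (J_hol hB H hk h) (pi_hol hB H hk h)
    (qu_hol hB H hk h)

/-- **Index zero** -/
theorem fr_T : Fr (k.T B F m W) 0 := (sp_sym hB H hk h).fr (qt_x0 hB H hk)

theorem JH_T (ψ : k.H B m) : JH _ _ (k.T B F m W ψ) = k.T B F m W (JH _ _ ψ) :=
  JH_tpzL (cp_pp hB H _) (fun θ => ((sp_sym hB H hk h).cm θ).1) ψ

theorem fr_sub {σ : CL (k.H B m) (k.H B m)} (hσ : IsCompactOperator σ) : Fr (k.T B F m W - σ) 0 :=
  (fr_T hB H hk h).of_sub_compact (by rw [sub_sub_cancel_left]; exact hσ.neg)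

end main

section cfg
variable {r : ℕ} {c : Cfg M ι lam r}

theorem cpt_tc (t : Tc M lam r) : IsCompactOperator (c.tc B F k t) := cpt_frk _ _ _

theorem cpt_wpc {K : Type} [Fintype K] (T : K → Tc M lam r) (w : K → ℝ) :
    IsCompactOperator (wpc B F k T w c) :=
  cpt_sum _ fun j _ => (cpt_tc (T j)).smul (w j)

theorem fr_wpc (hB : B.OK I) (H : c.m.OK I B) (hk : k.OK B F) (h : Cn0 k c.W) {K : Type}
    [Fintype K] (T : K → Tc M lam r) (w : K → ℝ) : Fr (k.T B F c.m c.W - wpc B F k T w c) 0 :=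
  fr_sub hB H hk h (cpt_wpc T w)

theorem JH_frk_pi (hB : B.OK I) (H : m.OK I B) {Ξ : En (Fin m.N)} (hΞ : m.J * Ξ = Ξ * m.J)
    (a b : ℕ) (w : ℂ) (ψ : k.H B m) :
    JH _ _ (frk _ _ a b (k.pi B F m k.x0 * csE m.J w * Ξ * k.pi B F m k.x0) ψ) =
      frk _ _ a b (k.pi B F m k.x0 * csE m.J w * Ξ * k.pi B F m k.x0) (JH _ _ ψ) :=
  JH_frk (cp_pp hB H _) (((Commute.mul_right (J_pi H) (csE_comm rfl w).symm).mul_right
    hΞ).mul_right (J_pi H)) a b ψ

variable [T2Space M] (hB : B.OK I) (H : c.m.OK I B) (C : c.m.IsConn B G c.W)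
  (ra : Wrd81.RH G.F (c.m.adW c.W))
include hB H C ra

theorem res_g {s : M → c.m.A} (hs : ∀ x, s x ∈ c.m.gS x) (x : M) :
    G.F.res (c.m.adW c.W) s x ∈ c.m.gS x := by
  have sg := Std94.sm_pg hB H
  rw [← ra.res_prj sg inner_pg pg_pg (pg_par H C sg) (fun x => pg_of_mem (hs x)) x]
  exact pg_mem x _

theorem wd_g {s : M → c.m.A} (hs : ∀ x, s x ∈ c.m.gS x) (l : List (La M)) (x : M) :
    Wrd81.wd (c.la G.F) s l x ∈ c.m.gS x := by
  induction l generalizing x with
  | nil => exact hs x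
  | cons t u ih =>
    cases t
    exacts [Submodule.smul_mem _ _ (ih x), res_g hB H C ra ih x]

theorem aw_g (ξ : AW M) (x : M) : c.aw G.F ξ x ∈ c.m.gS x := by
  refine wd_g hB H C ra ?_ _ x
  cases ξ.s
  exacts [fun _ => q_mem _ _, res_g hB H C ra (res_g hB H C ra fun x =>
    Submodule.sum_mem _ fun s _ => Submodule.smul_mem _ _ (Fg_mem _ s))]

theorem xi_comm {x : M} {T : En (Fin c.m.N)} (hT : ∀ ξ ∈ c.m.gS x, T * opL ξ = opL ξ * T)
    (ξ : Xi M lam r) : T * c.xi G.F ξ x = c.xi G.F ξ x * T := by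
  cases ξ
  exacts [Commute.one_right T, hT _ (aw_g hB H C ra _ x),
    hT _ (wd_g hB H C ra (fun _ => q_mem _ _) _ x)]

theorem JH_tc (t : Tc M lam r) (ψ : k.H B c.m) :
    JH _ _ (c.tc B G.F k t ψ) = c.tc B G.F k t (JH _ _ ψ) :=
  JH_frk_pi hB H (xi_comm hB H C ra (fun _ => g_J) t.ξ) _ _ _ ψ

end cfg

end Crest.Agent.X212.Hol14
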