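import Crest.Agent.X212.Hol14.Sq
import Crest.Agent.X212.Cnt93.Pt
import Crest.Agent.X212.Abel74.Iso
import Crest.Agent.X212.Abel74.Form

-- ▼ part X212/Hol14/Pb
section

/-!
# Row 212, Toeplitz cut: pull-back of forms and connections to the plane; the flux
-/

set_option autoImplicit false
set_option linter.unusedSectionVars false
noncomputable section
open scoped Manifold ContDiff Topology InnerProductSpace
open Set Function Filter Finset

namespace Crest.Agent.X212.Hol14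
open An Wz78 Crest.Agent.R208 Crest.Agent.R208.F

variable {E : Type} [NormedAddCommGroup E] [NormedSpace ℝ E] [FiniteDimensional ℝ E]
  [MeasurableSpace E] [BorelSpace E]
  {HM : Type} [TopologicalSpace HM] {I : ModelWithCorners ℝ E HM} [I.Boundaryless]
  {M : Type} [TopologicalSpace M] [ChartedSpace HM M] [IsManifold I ∞ M]
  [MeasurableSpace M] [BorelSpace M] [SecondCountableTopology M] {ι : Type} [Fintype ι]
  {N N' : Type} [NormedAddCommGroup N] [NormedSpace ℝ N] [NormedAddCommGroup N'] [NormedSpace ℝ N']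
  (F : Fr I M ι) (Γ : X2 → M) {u v y : X2}

/-- frame components of the partial derivatives -/
def vf (v : X2) (a : ι) (y : X2) : ℝ := Num57.tl F (Γ y) a (mfderiv 𝓘(ℝ, X2) I Γ y v)

/-- pull-back of one-forms -/
def pb1 (α : ι → M → N) (v y : X2) : N := ∑ a, vf F Γ v a y • α a (Γ y)

/-- pull-back of two-forms -/
def pb2 (β : ι → ι → M → N) (y : X2) : N :=
  ∑ a, ∑ b, (vf F Γ e1 a y * vf F Γ e2 b y) • β a b (Γ y)

variable (I) in
/-- a two-form on the two partial derivatives -/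
def dns (w : M → Ext E) (y : X2) : ℝ :=
  Num57.e2 (w (Γ y)) (mfderiv 𝓘(ℝ, X2) I Γ y e1) (mfderiv 𝓘(ℝ, X2) I Γ y e2)

variable {F Γ} {α : ι → M → N} {β β' : ι → ι → M → N} {f : M → N}

theorem vf_sum : ∑ a, vf F Γ v a y • Num57.ee F (Γ y) a = mfderiv 𝓘(ℝ, X2) I Γ y v :=
  (Num57.cf F (Γ y)).ex _

theorem vf_sum' : ∑ a, vf F Γ v a y • F.e a (Γ y) = mfderiv 𝓘(ℝ, X2) I Γ y v :=
  (Num57.cf F (Γ y)).ex _

theorem pb2_congr (h : ∀ a b, β a b (Γ y) = β' a b (Γ y)) : pb2 F Γ β y = pb2 F Γ β' y := by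
  simp only [pb2, h]

theorem pb2_clm (L : N →L[ℝ] N') : pb2 F Γ (fun a b x => L (β a b x)) y = L (pb2 F Γ β y) := by
  simp only [pb2, map_sum, map_smul]

theorem dns_eq (w : M → Ext E) : dns I Γ w y = pb2 F Γ (Num57.k2 F w) y := by
  rw [dns, ← vf_sum (F := F), ← vf_sum (F := F), Num57.e2_vsum]
  simp only [Num57.e2_vsum', pb2, mul_sum, smul_eq_mul, mul_assoc, Num57.k2]

variable (hΓ : ContMDiff 𝓘(ℝ, X2) I ∞ Γ)
include hΓ

theorem cda (hf : SA I f (Γ y)) : ContDiffAt ℝ ∞ (fun y => f (Γ y)) y :=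
  (ContMDiffAt.comp y hf (hΓ y)).contDiffAt

theorem cd_of (hf : ∀ y, SA I f (Γ y)) : Cd fun y => f (Γ y) :=
  contDiff_iff_contDiffAt.2 fun y => cda hΓ (hf y)

theorem vf_line {c : ℝ → X2} {t : ℝ} (hc : HasDerivAt c v t) (a : ι) :
    Cnt93.vl F (fun s => Γ (c s)) t a = vf F Γ v a (c t) := by
  rw [Cnt93.vl, vf, show (fun s => Γ (c s)) = Γ ∘ c from rfl,
    (((hΓ _).mdifferentiableAt (by simp)).hasMFDerivAt.comp t hc.hasFDerivAt.hasMFDerivAt).mfderiv]
  exact congrArg (fun w => Num57.tl F _ a (mfderiv 𝓘(ℝ, X2) I Γ (c t) w)) (one_smul ℝ v)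

theorem pd_comp (hf : MDifferentiableAt I 𝓘(ℝ, N) f (Γ y)) :
    pd v (fun y => f (Γ y)) y = pb1 F Γ (fun a => F.D a f) v y := by
  have h2 : HasFDerivAt (𝕜 := ℝ) (E := X2) (F := N) (fun t => f (Γ t)) _ y :=
    (hf.hasMFDerivAt.comp y ((hΓ y).mdifferentiableAt (by simp)).hasMFDerivAt).hasFDerivAt
  rw [pd, h2.fderiv]
  show mfderiv I 𝓘(ℝ, N) f (Γ y) (mfderiv 𝓘(ℝ, X2) I Γ y v) = _
  rw [← vf_sum' (F := F), map_sum]
  exact sum_congr rfl fun a _ => map_smul _ _ _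

theorem cd_vf (v : X2) (a : ι) : Cd (vf F Γ v a) := by
  let L : Ext X2 →L[ℝ] ℝ := LinearMap.toContinuousLinearMap
    { toFun := fun w => Num57.e1 w v
      map_add' := fun _ _ => Num57.e1_add _ _ _
      map_smul' := fun _ _ => Num57.e1_smul _ _ _ }
  have e : vf F Γ v a = fun s => L (Dr59.pm 𝓘(ℝ, X2) I Γ (Num57.th F a) s) :=
    funext fun s => by
      show _ = Num57.e1 _ _
      rw [Dr59.pm_apply, Num57.th, pb_io, Num57.e1_io]
      rfl
  rw [e]
  exact contDiff_iff_contDiffAt.2 fun s => L.contDiff.contDiffAt.comp s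
    (Dr59.cAt_model.1 (Dr59.SmAt.pm (hΓ s) (Num57.smAt_th F a _)))

theorem cd_pb1 (h : ∀ a y, SA I (α a) (Γ y)) (v : X2) : Cd (pb1 F Γ α v) :=
  ContDiff.sum fun a _ => (cd_vf hΓ v a).smul (cd_of hΓ (h a))

theorem cd_pb2 (h : ∀ a b y, SA I (β a b) (Γ y)) : Cd (pb2 F Γ β) :=
  ContDiff.sum fun a _ => ContDiff.sum fun b _ =>
    ((cd_vf hΓ _ a).mul (cd_vf hΓ _ b)).smul (cd_of hΓ (h a b))

theorem pd_pb1 (h : ∀ a, SA I (α a) (Γ y)) : pd u (pb1 F Γ α v) y =
    ∑ b, (pd u (vf F Γ v b) y • α b (Γ y) +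
      vf F Γ v b y • ∑ a, vf F Γ u a y • F.D a (α b) (Γ y)) := by
  have d := fun a => (cda hΓ (h a)).differentiableAt (by simp)
  refine (pd_sum fun a => ((cd_vf hΓ v a).df y).smul (d a)).trans (sum_congr rfl fun b _ => ?_)
  exact (pd_smul ((cd_vf hΓ v b).df y) (d b)).trans (by rw [pd_comp (F := F) hΓ (h b).md]; rfl)

theorem d_pb1' (h : ∀ a, SA I (α a) (Γ y)) : pd e1 (pb1 F Γ α e2) y - pd e2 (pb1 F Γ α e1) y =
    ∑ k, (pd e1 (vf F Γ e2 k) y - pd e2 (vf F Γ e1 k) y + pb2 F Γ (fun a b => F.c a b k) y) •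
      α k (Γ y) + pb2 F Γ (d1 I F.e F.c α) y := by
  rw [pd_pb1 hΓ h, pd_pb1 hΓ h]
  simp only [pb2, d1, F.D_def, smul_sub, add_smul, sub_smul, sum_add_distrib, sum_sub_distrib,
    smul_sum, sum_smul, smul_smul, smul_eq_mul]
  rw [sum_comm (f := fun b a => (vf F Γ e2 b y * vf F Γ e1 a y) • _),
    sum_comm (f := fun k a => ∑ b, _ • α k (Γ y))]
  simp only [mul_comm (vf F Γ e2 _ y), sum_comm (f := fun k b => (_ * F.c _ b k _) • α k (Γ y))]
  abel

/-- **`d` commutes with the pull-back** -/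
theorem d_pb1 (h : ∀ a, SA I (α a) (Γ y))
    (hp : ∀ a, ∑ b, F.P a b (Γ y) • α b (Γ y) = α a (Γ y)) :
    pd e1 (pb1 F Γ α e2) y - pd e2 (pb1 F Γ α e1) y = pb2 F Γ (d1 I F.e F.c α) y := by
  rw [d_pb1' hΓ h, add_eq_right]
  generalize hw : (fun k => pd e1 (vf F Γ e2 k) y - pd e2 (vf F Γ e1 k) y +
    pb2 F Γ (fun a b => F.c a b k) y) = w
  have := sep F (Γ y) w fun f hf => by
    have h0 := hf.self_of_nhds
    have e := d_pb1' (F := F) hΓ fun a => (frm F).sD a h0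
    have e' : ∀ v, pb1 F Γ (fun a => Sob92.dv I (F.e a) f) v =ᶠ[𝓝 y] pd v fun y => f (Γ y) :=
      fun v => ((hΓ y).continuousAt.eventually hf).mono fun z hz => (pd_comp hΓ hz.md).symm
    rw [pb2_congr (β := d1 I F.e F.c _) (β' := fun _ _ _ => 0)
      fun a b => sub_eq_zero.2 ((frm F).br a b f _ h0), pd_congr (e' _), pd_congr (e' _),
      pd_comm (cda hΓ h0), sub_self] at e
    simp only [congrFun hw] at e
    simpa [pb2] using e.symm
  simp only [congrFun hw]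
  rw [sum_congr rfl fun k _ => congrArg (w k • ·) (hp k).symm]
  simp only [smul_sum, smul_smul]
  rw [sum_comm]
  simp only [← sum_smul, this, zero_smul, sum_const_zero]

variable {κ : Type} [Fintype κ] [DecidableEq κ] {W : ι → M → En κ} {T : M → En κ}

theorem cu_pb1 (h : ∀ a, SA I (W a) (Γ y))
    (hp : ∀ a, ∑ b, F.P a b (Γ y) • W b (Γ y) = W a (Γ y)) :
    cu (pb1 F Γ W e1) (pb1 F Γ W e2) y = pb2 F Γ (curv I F.e F.c W) y := by
  rw [cu, d_pb1 hΓ h hp]
  simp only [pb1, pb2, d1, curv, sum_mul_sum, smul_mul_smul_comm]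
  rw [sum_comm (f := fun b a => (vf F Γ e2 b y * vf F Γ e1 a y) • _)]
  simp only [← sum_sub_distrib, ← sum_add_distrib]
  exact sum_congr rfl fun a _ => sum_congr rfl fun b _ => by module

theorem cv_comp (hT : SA I T (Γ y)) : cv v (pb1 F Γ W v) (fun y => T (Γ y)) y =
    pb1 F Γ (fun a => nabE I F.e W a T) v y := by
  rw [cv, pd_comp (F := F) hΓ hT.md]
  simp only [pb1, nabE, F.D_def, sum_mul, mul_sum, smul_mul_assoc, mul_smul_comm, smul_add,
    smul_sub, sum_add_distrib, sum_sub_distrib]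

end Crest.Agent.X212.Hol14
end
end

-- ▼ part X212/Hol14/Stk

/-!
# Row 212, Toeplitz cut: the symbol of flat and of abelian connections
-/

set_option autoImplicit false
set_option linter.unusedSectionVars false
noncomputable section
open scoped Manifold ContDiff Topology InnerProductSpace
open Set Function Filter Finset

namespace Crest.Agent.X212.Hol14
open An Wz78 Crest.Agent.R208 Crest.Agent.R208.F
open Fred93 (Fr)
open Cut54 (mu')
open Csm97 (pa pa1 Dat)
open Abel74 (RedOn fF fm hf)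

section lin
variable {κ : Type} [Fintype κ] [DecidableEq κ] {J A p p' q q' η : En κ}

theorem pa_comm (hp : Commute η p) (hq : Commute η q) (h1 : Commute η (p' + (A * p - p * A)))
    (h2 : Commute η (q' + (A * q - q * A))) :
    pa A p p' q q' * η - η * pa A p p' q q' = A * η - η * A := by
  have c := ((hp.smul_right (2 : ℝ)).sub_right (Commute.one_right _)).mul_right h1
  rw [pa, pa1]
  generalize ((2 : ℝ) • p - 1) * (p' + (A * p - p * A)) = R at c ⊢
  have c' := (hq.mul_right (h2.add_right ((c.mul_right hq).sub_right (hq.mul_right c)))).smul_right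
    (1 / 2 : ℝ)
  rw [show q' + ((A + R) * q - q * (A + R)) = q' + (A * q - q * A) + (R * q - q * R) by
    noncomm_ring, sub_mul, add_mul, mul_sub, mul_add η, c.eq, c'.eq]
  abel

theorem cos_eq_one {φ : ℝ} (h0 : p ≠ 0) (hs : η * (η * p) = -p)
    (h : p = (Real.cos φ • 1 - Real.sin φ • η) * p) : Real.cos φ = 1 := by
  have h' := congrArg (η * ·) h
  simp only [sub_mul, mul_sub, smul_mul_assoc, mul_smul_comm, one_mul, hs] at h h'
  have : ((1 - Real.cos φ) ^ 2 + Real.sin φ ^ 2) • p = 0 := by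
    linear_combination (norm := module) (1 - Real.cos φ) • h - Real.sin φ • h'
  nlinarith [(smul_eq_zero.1 this).resolve_right h0, sq_nonneg (Real.sin φ),
    sq_nonneg (1 - Real.cos φ)]

/-- the index of a scalar symbol from a lift of the phase -/
theorem fr_lift (h : CP J p) {φ : ℝ → ℝ} (hc : Continuous φ) {n : ℤ}
    (h1 : φ 1 = φ 0 + n * (2 * Real.pi)) {g : Sy κ}
    (hg : ∀ t : ℝ, g t * p = (Real.cos (φ t) • 1 + Real.sin (φ t) • J) * p) :
    Fr (tpzL J p g) (-n * rk p) := by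
  refine fr_wind h n ⟨AddCircle.liftIco 1 0 fun t => φ t - n * (2 * Real.pi) * t,
    AddCircle.liftIco_zero_continuous (by rw [h1]; ring) (by fun_prop)⟩ fun θ => ?_
  obtain ⟨t, ht, rfl⟩ := AddCircle.eq_coe_Ico θ
  rw [hg, fourier_coe_apply, exS, ContinuousMap.coe_mk, ContinuousMap.coe_mk,
    AddCircle.liftIco_zero_coe_apply ht, ← Complex.exp_add,
    show _ + _ = (φ t : ℂ) * Complex.I by push_cast; ring, csE, Complex.exp_ofReal_mul_I_re,
    Complex.exp_ofReal_mul_I_im]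

end lin

variable {E : Type} [NormedAddCommGroup E] [NormedSpace ℝ E] [FiniteDimensional ℝ E]
  [MeasurableSpace E] [BorelSpace E]
  {HM : Type} [TopologicalSpace HM] {I : ModelWithCorners ℝ E HM} [I.Boundaryless]
  {M : Type} [TopologicalSpace M] [ChartedSpace HM M] [IsManifold I ∞ M]
  [MeasurableSpace M] [BorelSpace M] [SecondCountableTopology M] {ι : Type} [Fintype ι]
  {lam : Type} [Fintype lam] {m : Md M ι lam} {B : Base M ι lam} {k : Cut M lam}
  {F : An.Fr I M ι} {G : Geo I M ι lam} {W : m.Cn} {v y : X2} {θ s : ℝ}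
  {N : Type} [NormedAddCommGroup N] [NormedSpace ℝ N]

/-- the paths as a map on the plane -/
abbrev gm (k : Cut M lam) (y : X2) : M := k.γ y.1 y.2

theorem gm_mem (y : X2) : gm k y ∈ k.supp := ⟨(y.1, y.2), rfl⟩

theorem x0_mem : k.x0 ∈ k.supp := ⟨(0, 0), rfl⟩

variable (I k) in
/-- the integral of a two-form over the sphere of the cut -/
def flux (w : M → Ext E) : ℝ := ∫ θ in (0 : ℝ)..1, ∫ s in (0 : ℝ)..1, dns I (gm k) w (θ, s)

section flux
variable {w w' b : M → Ext E} {O : Set M}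

theorem flux_congr (h : EqOn w w' k.supp) : flux I k w = flux I k w' := by
  simp only [flux, dns, h (gm_mem _)]

theorem flux_smul (r : ℝ) : flux I k (r • w) = r * flux I k w := by
  simp only [flux, dns, Pi.smul_apply, Num57.e2_smul, intervalIntegral.integral_const_mul]

theorem flux_neg : flux I k (-w) = -flux I k w := by
  simp only [flux, dns, Pi.neg_apply, Num57.e2_neg, intervalIntegral.integral_neg]

variable (h : Dat I k)
include h

theorem vf_e2 (a : ι) : vf F (gm k) e2 a (θ, s) = k.vel F θ s a :=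
  (vf_line h.sm (c := fun s => (θ, s)) ((hasDerivAt_const s θ).prodMk (hasDerivAt_id s)) a).symm

theorem pb1_end {α : ι → M → N} (hs : s = 0 ∨ s = 1) : pb1 F (gm k) α e1 (θ, s) = 0 := by
  obtain ⟨x, hx⟩ : ∃ x, (fun t : ℝ => gm k (t, s)) = fun _ => x := by
    rcases hs with rfl | rfl
    exacts [⟨_, funext fun t => h.h0 _ _ le_rfl⟩, ⟨_, funext fun t => h.h1 _ _ le_rfl⟩]
  refine sum_eq_zero fun a _ => ?_
  rw [← vf_line h.sm (c := fun t => (t, s)) ((hasDerivAt_id θ).prodMk (hasDerivAt_const θ s)) a, hx,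
    Cnt93.vl, mfderiv_const]
  exact (congrArg (· • _) (map_zero _)).trans (zero_smul ℝ _)

variable (F)
include F

theorem cd_dns (hw : Dr59.Sm I k.supp w) : Cd (dns I (gm k) w) :=
  funext (fun y => dns_eq (F := F) (Γ := gm k) (y := y) w) ▸
    cd_pb2 h.sm fun a c y => Num57.sa_k2 F (hw _ (gm_mem y)) a c

theorem flux_add (hw : Dr59.Sm I k.supp w) (hw' : Dr59.Sm I k.supp w') :
    flux I k (w + w') = flux I k w + flux I k w' := by
  have c := (cd_dns F h hw).continuous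
  have c' := (cd_dns F h hw').continuous
  have i : ∀ {f : X2 → ℝ}, Continuous f → IntervalIntegrable (fun t => ∫ s in (0 : ℝ)..1, f (t, s))
      MeasureTheory.volume 0 1 := fun {f} hf =>
    (intervalIntegral.continuous_parametric_intervalIntegral_of_continuous'
      (f := fun t s => f (t, s)) hf _ _).intervalIntegrable _ _
  rw [flux, flux, flux, ← intervalIntegral.integral_add (i c) (i c')]
  refine congrArg (intervalIntegral · 0 1 _) (funext fun t => ?_)
  exact (congrArg (intervalIntegral · 0 1 _) (funext fun s => Num57.e2_add _ _ _ _)).trans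
    (intervalIntegral.integral_add ((c.comp (Continuous.prodMk_right t)).intervalIntegrable _ _)
    ((c'.comp (Continuous.prodMk_right t)).intervalIntegrable _ _))

/-- **Stokes' theorem on the sphere of the cut** -/
theorem flux_dM (hb : Dr59.Sm I k.supp b) (h1 : ∀ x ∈ k.supp, ∀ᶠ y in 𝓝 x, FI.IsDeg 1 (b y)) :
    flux I k (Dr59.dM I b) = 0 := by
  have c := fun a y => Num57.sa_k1 F (hb _ (gm_mem y)) a
  rw [← green (cd_pb1 (F := F) h.sm c e1) (cd_pb1 (F := F) h.sm c e2)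
    (fun _ => pb1_end h (.inl rfl)) (fun _ => pb1_end h (.inr rfl)) fun s => by
      simp only [pb1, vf_e2 h, AddCircle.coe_period, AddCircle.coe_zero]]
  simp only [flux, dns_eq (F := F), fun y => d_pb1 (y := y) h.sm (c · y) fun a => Num57.k1_P F b a _]
  simp only [pb2, Num57.k2_dM F (hb _ (gm_mem _)) (h1 _ (gm_mem _))]
  rfl

theorem flux_ex (hO : IsOpen O) (hs : k.supp ⊆ O) (hw : Dr59.Ex I O w) (hd : Dr59.Dg 2 O w) :
    flux I k w = 0 := by
  obtain ⟨b, h1, h2, h3⟩ := hw.deg hd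
  rw [← flux_congr fun x hx => h3 x (hs hx)]
  exact flux_dM F h (fun x hx => h1 x (hs hx)) fun x hx => mem_of_superset (hO.mem_nhds (hs hx)) h2

/-- the flux depends only on the class -/
theorem flux_eq (hO : IsOpen O) (hs : k.supp ⊆ O) (hw : Dr59.Cl I 2 O w) (hw' : Dr59.Cl I 2 O w')
    (e : Dr59.Ex I O (w - w')) : flux I k w = flux I k w' := by
  have := flux_add F h (fun x hx => (hw.sub hw').sm x (hs hx)) fun x hx => hw'.sm x (hs hx)
  rwa [sub_add_cancel, flux_ex F h hO hs e (hw.sub hw').dg, zero_add] at this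

end flux

variable (k B F) in
/-- the corrected connection in the direction `v` -/
def Bv (W : m.Cn) (v y : X2) : En (Fin m.N) :=
  pa (pb1 F (gm k) W v y) (k.pi B F m (gm k y)) (pd v (fun y => k.pi B F m (gm k y)) y)
    (k.qu B F m (gm k y)) (pd v (fun y => k.qu B F m (gm k y)) y)

section main
variable (hB : B.OK I) (H : m.OK I B) (hk : k.OK B G.F)
include hB H hk

theorem cd_pi : Cd fun y => k.pi B G.F m (gm k y) :=
  cd_of hk.sm fun _ => Cnt93.sa_pi hB hk H (hk.om _ _)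

theorem cd_qu : Cd fun y => k.qu B G.F m (gm k y) :=
  cd_of hk.sm fun _ => Cnt93.sa_qu hB hk H (hk.om _ _) (hk.q0 m H _ _)

theorem jet (v y : X2) : Jet m.J (k.pi B G.F m (gm k y)) (pd v (fun y => k.pi B G.F m (gm k y)) y)
    (k.qu B G.F m (gm k y)) (pd v (fun y => k.qu B G.F m (gm k y)) y) := by
  simpa only [zero_smul, add_zero] using jet_of (fun t : ℝ => qt_γ hB H hk (y + t • v).1 (y + t • v).2)
    (pd_line ((cd_pi hB H hk).df y)) (pd_line ((cd_qu hB H hk).df y))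

theorem Bv_e2 : Bv B k G.F W e2 (θ, s) = k.A2 B G.F m W θ s := by
  rw [Csm97.A2_eq, Bv, ← (pd_e2 ((cd_pi hB H hk).df _)).deriv, ← (pd_e2 ((cd_qu hB H hk).df _)).deriv]
  simp only [pb1, vf_e2 (Csm97.dat hk)]

theorem Bv_end (hs : s = 0 ∨ s = 1) : Bv B k G.F W e1 (θ, s) = 0 := by
  rw [Bv, pd_comp (F := G.F) hk.sm (Cnt93.sa_pi hB hk H (hk.om _ _)).md,
    pd_comp (F := G.F) hk.sm (Cnt93.sa_qu hB hk H (hk.om _ _) (hk.q0 m H _ _)).md]
  simp only [pb1_end (Csm97.dat hk) hs, pa, pa1, mul_zero, zero_mul, sub_zero, add_zero, smul_zero]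

variable (C : m.IsConn B G W)
include C

omit hB H in
theorem cd_A (v : X2) : Cd (pb1 G.F (gm k) W v) := cd_pb1 hk.sm (fun a _ => C.cc.sm a _) v

theorem cd_Bv (v : X2) : Cd (Bv B k G.F W v) :=
  contDiffOn_univ.1 (Csm97.contDiffOn_pa (cd_A hk C v).contDiffOn (cd_pi hB H hk).contDiffOn
    ((cd_pi hB H hk).pd v).contDiffOn (cd_qu hB H hk).contDiffOn ((cd_qu hB H hk).pd v).contDiffOn)

theorem tr_Bv (θ : ℝ) : Tr (fun s => Bv B k G.F W e2 (θ, s))
    fun s => (fun y : X2 => trp (k.A2 B G.F m W y.1) y.2) (θ, s) := by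
  simpa only [Bv_e2 hB H hk] using tr_A2 hB H hk (cn0_of C) θ

theorem skw_Bv (v y : X2) : trn (Bv B k G.F W v y) = -Bv B k G.F W v y := by
  rw [Bv, (jet hB H hk v y).skw]
  simp only [pb1, map_sum, map_smul, Skw.trn (C.sk _ _), smul_neg, sum_neg_distrib]

omit C in
theorem par_pi (v : X2) : cv v (Bv B k G.F W v) (fun y => k.pi B G.F m (gm k y)) = 0 :=
  funext fun y => by rw [cv, Bv, (jet hB H hk v y).par_p, Pi.zero_apply]

omit C in
theorem par_qu (v : X2) : cv v (Bv B k G.F W v) (fun y => k.qu B G.F m (gm k y)) = 0 :=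
  funext fun y => by rw [cv, Bv, (jet hB H hk v y).par_q, Pi.zero_apply]

theorem par_J (v : X2) : cv v (Bv B k G.F W v) (fun _ => m.J) = 0 := funext fun y => by
  rw [cv, pd_const, Bv, (jet hB H hk v y).J2, sub_self, add_zero, Pi.zero_apply]
  simp only [pb1, sum_mul, mul_sum, smul_mul_assoc, mul_smul_comm, C.J]

theorem cd_pg (η : m.A) : Cd fun y => opL (m.pg (gm k y) η) :=
  cd_of (f := fun x => opL (m.pg x η)) hk.sm fun _ =>
    SA.clm opL (SA.app (Std94.sm_pg hB H _) contMDiffAt_const)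

theorem cv_pg (η : m.A) (v y : X2) : ∃ ζ ∈ m.gS (gm k y),
    cv v (pb1 G.F (gm k) W v) (fun y => opL (m.pg (gm k y) η)) y = opL ζ := by
  have s : SA I (fun x => m.pg x η) (gm k y) := SA.app (Std94.sm_pg hB H _) contMDiffAt_const
  refine ⟨_, Submodule.sum_mem _ fun a (_ : a ∈ Finset.univ) => Submodule.smul_mem _ (vf G.F (gm k) v a y)
    (nab_mem_g H C a s fun x => pg_mem x η), ?_⟩
  rw [cv_comp (T := fun x => opL (m.pg x η)) hk.sm (SA.clm opL s)]
  simp only [pb1, opL_nab _ s, map_sum, map_smul]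

theorem cv_comm_g {S : X2 → En (Fin m.N)} (hS : Cd S)
    (h : ∀ y, ∀ η ∈ m.gS (gm k y), opL η * S y = S y * opL η) {η : m.A} (hη : η ∈ m.gS (gm k y)) :
    Commute (opL η) (cv v (pb1 G.F (gm k) W v) S y) := by
  obtain ⟨ζ, h1, h2⟩ := cv_pg hB H hk C η v y
  have e := cv_mul (v := v) (A := pb1 G.F (gm k) W v) (y := y) (cd_pg hB H hk C η) hS
  rw [funext fun y => h y _ (pg_mem _ η), cv_mul hS (cd_pg hB H hk C η), h2, pg_of_mem hη, h y ζ h1,
    add_comm, add_right_inj] at e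
  exact e.symm

theorem cv_Bv {T : X2 → En (Fin m.N)} (h : ∃ η ∈ m.gS (gm k y), T y = opL η) :
    cv v (Bv B k G.F W v) T y = cv v (pb1 G.F (gm k) W v) T y := by
  obtain ⟨η, hη, e⟩ := h
  rw [cv, cv, e, Bv, pa_comm (g_pi H hη) (g_qu H hη)
    (cv_comm_g hB H hk C (cd_pi hB H hk) (fun _ _ => g_pi H) hη)
    (cv_comm_g hB H hk C (cd_qu hB H hk) (fun _ _ => g_qu H) hη)]

omit hB H hk C in
theorem pbF_mem (y : X2) :
    pb2 G.F (gm k) (fun a b x => m.Fg G.F W x (a, b)) y ∈ m.gS (gm k y) :=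
  Submodule.sum_mem _ fun _ _ => Submodule.sum_mem _ fun _ _ => Submodule.smul_mem _ _ (Fg_mem _ _)

variable (hG : G.OK B)
include hG

theorem cu_comm {η : m.A} (hη : η ∈ m.gS (gm k y)) :
    Commute (cu (Bv B k G.F W e1) (Bv B k G.F W e2) y -
      opL (pb2 G.F (gm k) (fun a b x => m.Fg G.F W x (a, b)) y)) (opL η) := by
  have e := cv_comm (y := y) (cd_Bv hB H hk C e1) (cd_Bv hB H hk C e2) (cd_pg hB H hk C η)
  have e' : ∀ v, cv v (Bv B k G.F W v) (fun y => opL (m.pg (gm k y) η)) = _ := fun v =>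
    funext fun y => cv_Bv hB H hk C ⟨_, pg_mem _ η, rfl⟩
  rw [e', e', cv_Bv hB H hk C (cv_pg hB H hk C η _ y), cv_Bv hB H hk C (cv_pg hB H hk C η _ y),
    cv_comm (cd_A hk C e1) (cd_A hk C e2) (cd_pg hB H hk C η), pg_of_mem hη,
    cu_pb1 hk.sm (fun a => C.cc.sm a _) fun a => by rw [hG.P]; exact C.cc.proj a _] at e
  have c : ∀ a b, _ := fun a b => congrArg opL (curv_adW_g hB hG H C a b hη)
  simp only [curv_adW fun a => C.cc.sm a _, opL_adc] at c
  rw [commute_iff_eq, sub_mul, mul_sub, sub_eq_sub_iff_sub_eq_sub, ← e]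
  simp only [pb2, map_sum, map_smul, sum_mul, mul_sum, smul_mul_assoc, mul_smul_comm,
    ← sum_sub_distrib, ← smul_sub, c]

/-- **On `U` the curvature of the corrected connection is the `g`-part** -/
theorem cu_pi (y : X2) : cu (Bv B k G.F W e1) (Bv B k G.F W e2) y * k.pi B G.F m (gm k y) =
    opL (pb2 G.F (gm k) (fun a b x => m.Fg G.F W x (a, b)) y) * k.pi B G.F m (gm k y) := by
  have g := pbF_mem (k := k) (G := G) (W := W) y
  have c := fun {T} hT => cu_par (y := y) (T := T) (cd_Bv hB H hk C e1) (cd_Bv hB H hk C e2) hT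
  rw [← sub_eq_zero, ← sub_mul]
  refine zero_on_U hB H (hk.om _ _) (hk.q0 m H _ _) (skw_of ?_) ?_ ?_ ?_
    fun η hη => cu_comm hB H hk C hG hη
  · rw [trn_sub, cu_skw (cd_Bv hB H hk C e1) (cd_Bv hB H hk C e2) (skw_Bv hB H hk C _)
      (skw_Bv hB H hk C _), Skw.trn (g_skw g), neg_sub_neg, neg_sub]
  · rw [mul_sub, sub_mul, c contDiff_const (par_J hB H hk C _) (par_J hB H hk C _), g_J g]
  · rw [mul_sub, sub_mul, g_pi H g, c (cd_pi hB H hk) (par_pi hB H hk _) (par_pi hB H hk _)]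
  · rw [mul_sub, sub_mul, g_qu H g, c (cd_qu hB H hk) (par_qu hB H hk _) (par_qu hB H hk _)]

theorem hol_eq {ξ : X2 → En (Fin m.N)} {ξ₀ : En (Fin m.N)} {f : X2 → ℝ} (hf : Continuous f)
    (hξ : ∀ y, ξ y * trp (k.A2 B G.F m W y.1) y.2 = trp (k.A2 B G.F m W y.1) y.2 * ξ₀)
    (hK : ∀ y, opL (pb2 G.F (gm k) (fun a b x => m.Fg G.F W x (a, b)) y) * k.pi B G.F m (gm k y) =
      f y • (ξ y * k.pi B G.F m (gm k y)))
    (hc : k.pi B G.F m k.x0 * ξ₀ = ξ₀ * k.pi B G.F m k.x0)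
    (hs : ξ₀ * (ξ₀ * k.pi B G.F m k.x0) = -k.pi B G.F m k.x0) (θ : ℝ) {φ : ℝ}
    (hφ : φ = ∫ t in (0 : ℝ)..θ, ∫ s in (0 : ℝ)..1, f (t, s)) :
    hol B k G.F W θ * k.pi B G.F m k.x0 = (Real.cos φ • 1 - Real.sin φ • ξ₀) * k.pi B G.F m k.x0 :=
  stokes (P := fun y : X2 => trp (k.A2 B G.F m W y.1) y.2) (cd_Bv hB H hk C e1) (cd_Bv hB H hk C e2)
    (tr_Bv hB H hk C) (fun _ => Bv_end hB H hk (.inl rfl)) (fun _ => Bv_end hB H hk (.inr rfl)) hf
    (fun _ => pi_trp hB H hk (cn0_of C) _ _) hξ (fun y => (cu_pi hB H hk C hG y).trans (hK y)) hc hs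
    θ hφ

section flat
variable (h0 : ∀ x ∈ k.supp, m.Fg G.F W x = 0)
include h0

theorem flat_sym (θ : UnitAddCircle) : k.sym B G.F m W θ = m.pp B k.x0 := by
  obtain ⟨t, rfl⟩ := QuotientAddGroup.mk_surjective θ
  rw [sym_eq, hol_eq hB H hk C hG (ξ := fun _ => m.J) (f := fun _ => 0) continuous_const
    (fun y => J_trp hB H hk (cn0_of C) _ _) (fun y => by simp [pb2, h0 _ (gm_mem y)]) (J_pi H).symm
    (by rw [← mul_assoc, H.Jsq, neg_one_mul]) t (φ := 0) (by simp)]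
  simp

/-- **The Toeplitz operator of a flat connection is the identity** -/
theorem flat_T (ψ : k.H B m) : k.T B G.F m W ψ = ψ :=
  tpzL_p (cp_pp hB H _) (fun θ => by
    rw [cm_sym hB H hk (cn0_of C), flat_sym hB H hk C hG h0, pp_pp hB H]) ψ

theorem flat_ker {σ : CL (k.H B m) (k.H B m)} (hσ : ‖σ‖ < 1) {ψ : k.H B m}
    (h : k.T B G.F m W ψ = σ ψ) : ψ = 0 := by
  rw [flat_T hB H hk C hG h0] at h
  have := σ.le_opNorm ψ
  rw [← h] at this
  exact norm_le_zero_iff.1 (by nlinarith [norm_nonneg ψ])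

end flat

section abel
variable {ξ : M → m.A} (R : RedOn G.F m W k.supp ξ)
include R

omit hB H C hG in
theorem cd_xi : Cd fun y => opL (ξ (gm k y)) :=
  cd_of (f := fun x => opL (ξ x)) hk.sm fun y => SA.clm opL (R.sm _ (gm_mem y))

omit hG in
theorem par_xi (v : X2) : cv v (Bv B k G.F W v) (fun y => opL (ξ (gm k y))) = 0 := funext fun y => by
  have s := R.sm _ (gm_mem y)
  rw [cv_Bv hB H hk C ⟨_, R.mem _ (gm_mem y), rfl⟩,
    cv_comp (T := fun x => opL (ξ x)) hk.sm (SA.clm opL s)]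
  simp [pb1, opL_nab _ s, R.par _ (gm_mem y)]

omit hG in
theorem xi_trp (y : X2) : opL (ξ (gm k y)) * trp (k.A2 B G.F m W y.1) y.2 =
    trp (k.A2 B G.F m W y.1) y.2 * opL (ξ k.x0) := by
  rw [← hk.h0 y.1 0 le_rfl]
  exact (tr_Bv hB H hk C y.1).int (fun s => pd_e2 ((cd_xi hk R).df (y.1, s)))
    (fun s => by simpa only [cv, Pi.zero_apply] using congrFun (par_xi hB H hk C R e2) (y.1, s)) y.2

omit hB H hk R in
theorem dns_fm : dns I (gm k) (fm G.F m W ξ) = pb2 G.F (gm k) (fF G.F m W ξ) := funext fun _ =>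
  (dns_eq _).trans (pb2_congr fun a b => Abel74.k2_fm hG C a b _)

theorem pbF_eq (y : X2) : pb2 G.F (gm k) (fun a b x => m.Fg G.F W x (a, b)) y =
    dns I (gm k) (fm G.F m W ξ) y • ξ (gm k y) := by
  have c := (cu_comm hB H hk C hG (R.mem _ (gm_mem y))).eq
  have e := cu_par (y := y) (cd_Bv hB H hk C e1) (cd_Bv hB H hk C e2) (cd_xi hk R)
    (par_xi hB H hk C R _) (par_xi hB H hk C R _)
  generalize cu (Bv B k G.F W e1) (Bv B k G.F W e2) y = K at c e
  rw [sub_mul, mul_sub, e, sub_right_inj] at c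
  refine (Abel74.eq_of_comm hB H (R.mem _ (gm_mem y)) (R.sq _ (gm_mem y)) (pbF_mem y) c.symm).trans
    (congrArg (· • _) ?_)
  rw [dns_fm C hG]
  simp only [pb2, fF, sum_inner, real_inner_smul_left, sum_div, smul_eq_mul, mul_div_assoc]

theorem cd_fm : Cd (dns I (gm k) (fm G.F m W ξ)) :=
  dns_fm (k := k) (ξ := ξ) C hG ▸ cd_pb2 hk.sm fun a b y => (SA.app (SA.clm (innerSL ℝ)
    (sm_Fg hG C (Std94.sm_pg hB H) (a, b) _)) (R.sm _ (gm_mem y))).div_const 16

omit C hG in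
theorem xi_xi : opL (ξ k.x0) * (opL (ξ k.x0) * k.pi B G.F m k.x0) = -k.pi B G.F m k.x0 := by
  rw [← mul_assoc, R.sq _ x0_mem, neg_mul, Cnt93.p_pi k H]

/-- **The holonomy of an abelian connection** -/
theorem abel_hol (θ : ℝ) {φ : ℝ}
    (hφ : φ = ∫ t in (0 : ℝ)..θ, ∫ s in (0 : ℝ)..1, dns I (gm k) (fm G.F m W ξ) (t, s)) :
    hol B k G.F W θ * k.pi B G.F m k.x0 =
      (Real.cos φ • 1 - Real.sin φ • opL (ξ k.x0)) * k.pi B G.F m k.x0 :=
  hol_eq hB H hk C hG (cd_fm hB H hk C hG R).continuous (xi_trp hB H hk C R)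
    (fun y => by rw [pbF_eq hB H hk C hG R, map_smul, smul_mul_assoc])
    (g_pi H (R.mem _ x0_mem)).symm (xi_xi hB H hk R) θ hφ

/-- **The flux of a reduction is integral** -/
theorem abel_int : ∃ n : ℤ, flux I k (fm G.F m W ξ) = n * (2 * Real.pi) := by
  have e := abel_hol hB H hk C hG R 1 rfl
  rw [AddCircle.coe_period, hol, (tr_A2 hB H hk (cn0_of C) 0).l, one_mul] at e
  obtain ⟨n, hn⟩ := (Real.cos_eq_one_iff _).1 (cos_eq_one (fun h0 => by
    simpa [h0] using tr_pi (x := k.x0) hB H (hk.om 0 0)) (xi_xi hB H hk R) e)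
  exact ⟨n, hn.symm⟩

end abel

end main

variable (k B F) in
/-- the half of `U` on which `η = J` -/
def ph (η : m.A) : En (Fin m.N) := k.pi B F m k.x0 * hf m k.x0 η

section half
variable (hB : B.OK I) (H : m.OK I B) (hk : k.OK B F) {η : m.A} (hη : η ∈ m.gS k.x0)
include hB H hk

theorem ph_add (η : m.A) : ph B k F η + ph B k F (-η) = k.pi B F m k.x0 := by
  rw [ph, ph, ← mul_add, Abel74.hf_add, Cnt93.pi_p k H]

theorem pi_ph (η : m.A) : k.pi B F m k.x0 * ph B k F η = ph B k F η := by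
  rw [ph, ← mul_assoc, (qt_x0 hB H hk).hq.idem]

include hη

omit hB hk in
theorem pi_hf : k.pi B F m k.x0 * hf m k.x0 η = hf m k.x0 η * k.pi B F m k.x0 :=
  Abel74.hf_comm H hη (by rw [Cnt93.pi_p k H, Cnt93.p_pi k H]) (J_pi H).symm (g_pi H hη).symm

variable (hs : opL η * opL η = -m.p k.x0)
include hs

omit hB hk in
theorem xi_ph : opL η * ph B k F η = m.J * ph B k F η := by
  rw [ph, mu' (g_pi H hη), mul_assoc, Abel74.xi_hf H hη hs, mu' (J_pi H), mul_assoc]

theorem sub_ph : Sub m.J (k.pi B F m k.x0) (ph B k F η) := by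
  have Q := (qt_x0 hB H hk).hq
  refine ⟨Q, ⟨Q.toCJ, sym_of ?_, ?_, ?_⟩, pi_ph hB H hk η⟩
  · rw [ph, trn_mul, Sym.trn Q.sym, Sym.trn (Abel74.hf_sym H hη), pi_hf H hη]
  · rw [ph, mul_assoc, mu' (pi_hf H hη).symm, mul_assoc, Abel74.hf_hf H hη hs, mu' Q.idem]
  · rw [ph, mu' Q.comm, mul_assoc, mul_assoc, Abel74.J_hf H hη]

theorem sub_ph' : Sub m.J (m.pp B k.x0) (ph B k F η) :=
  ⟨cp_pp hB H _, (sub_ph hB H hk hη hs).hq, by rw [ph, mu' (qt_x0 hB H hk).pq]⟩

theorem rk_ph : rk (ph B k F η) = 2 := by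
  have Q := qt_x0 hB H hk
  have : trE (k.pi B F m k.x0 * (m.J * opL η)) = 0 := tr_zero (K := k.qu B F m k.x0) (c := -1)
    (by simp) (by simp only [mul_assoc, g_qu H hη, mu' Q.anti, mu' Q.Cq, mu' Q.qC, mul_neg, neg_mul,
      neg_neg]) (by rw [Q.sq, mul_neg, mul_assoc, mul_assoc, g_pi H hη, mu' Q.hq.comm, mul_assoc,
      mu' Q.hq.idem, neg_one_smul])
  refine rk_of (sub_ph hB H hk hη hs).hq.idem ?_
  rw [ph, hf, mul_smul_comm, mul_sub, Cnt93.pi_p k H, map_smul, map_sub, this,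
    show trE (k.pi B F m k.x0) = 4 from tr_pi hB H (hk.om 0 0)]
  norm_num

end half

theorem redOn_neg {O : Set M} {ξ : M → m.A} (R : RedOn F m W O ξ) : RedOn F m W O fun x => -ξ x :=
  ⟨fun x hx => (R.sm x hx).neg, fun x hx => neg_mem (R.mem x hx),
    fun x hx => by rw [map_neg, neg_mul_neg, R.sq x hx],
    fun x hx a => by rw [nab_neg, R.par x hx, neg_zero]⟩

section idx
variable (hB : B.OK I) (H : m.OK I B) (hk : k.OK B G.F) (C : m.IsConn B G W) (hG : G.OK B)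
  {ξ : M → m.A} (R : RedOn G.F m W k.supp ξ) {n : ℤ}
  (hn : flux I k (fm G.F m W ξ) = n * (2 * Real.pi))
include hB H hk C hG R hn

/-- **The index on the half `ξ = J`** -/
theorem fr_ph : Fr (tpzL m.J (ph B k G.F (ξ k.x0)) (cm (k.sym B G.F m W))) (2 * n) := by
  have h1 := R.mem _ x0_mem
  have h2 := R.sq _ x0_mem
  have S := sub_ph hB H hk h1 h2
  have c := intervalIntegral.continuous_parametric_intervalIntegral_of_continuous' (a₀ := 0)
    (b₀ := 1) (μ := MeasureTheory.volume) (f := fun t s => dns I (gm k) (fm G.F m W ξ) (t, s))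
    (cd_fm hB H hk C hG R).continuous
  refine (fr_lift S.hq (n := -n) (φ := fun θ => -∫ t in (0 : ℝ)..θ, ∫ s in (0 : ℝ)..1,
    dns I (gm k) (fm G.F m W ξ) (t, s)) (intervalIntegral.continuous_primitive
    (fun a b => c.intervalIntegrable a b) 0).neg (by
      rw [intervalIntegral.integral_same, ← flux, hn]; simp) fun t => ?_).cast
    (by rw [rk_ph hB H hk h1 h2]; push_cast; ring)
  rw [cm_sym hB H hk (cn0_of C), sym_eq, abel_hol hB H hk C hG R t rfl, add_mul, mul_assoc, S.pq,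
    sub_mul (m.pp B _), S.pq, (sub_ph' hB H hk h1 h2).pq, sub_self, add_zero, Real.cos_neg,
    Real.sin_neg, sub_mul, add_mul, smul_mul_assoc (Real.sin _), xi_ph H h1 h2, neg_smul, neg_mul,
    smul_mul_assoc (Real.sin _), sub_eq_add_neg]

/-- **The index on the half `ξ = -J`** -/
theorem fr_ph' : Fr (tpzL m.J (ph B k G.F (-ξ k.x0)) (cm (k.sym B G.F m W))) (-(2 * n)) :=
  (fr_ph hB H hk C hG (redOn_neg R) (n := -n) (by
    rw [Abel74.fm_neg, flux_neg, hn]; push_cast; ring)).cast (by ring)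

end idx

end Crest.Agent.X212.Hol14
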